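import Vale.Agent.P155.NT.Expl
import Vale.Agent.P155.T802.DetTwo

/-!
# P155, NT block A1: contour property, `hin`, atoms (helper902)
-/

namespace Vale.Agent.P155.NT

open Vale.Agent.P155 T802 T862 Finset

variable {V : Finset Pt} {ω ω' : Conf} {xS t : ℤ} {i : ℕ}

/-! ## Atoms -/

section

variable {τ : Stop V xS}

theorem Stop.atom_dd (h : ω' ∈ atom V τ.X ω) : ω' ∈ DD V := by
  classical
  unfold atom at h
  exact (Finset.mem_filter.1 h).1

theorem Stop.atom_onE (h : ω' ∈ atom V τ.X ω) : OnE (τ.E ω) ω ω' := by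
  classical
  unfold atom at h
  exact Stop.onE_of_agree (Finset.mem_filter.1 h).2

theorem Stop.atom_ti (hω : ω ∈ DD V) (h : ω' ∈ atom V τ.X ω) :
    τ.t ω' = τ.t ω ∧ τ.i ω' = τ.i ω :=
  τ.det ω hω ω' (Stop.atom_dd h) (Stop.atom_onE h)

theorem Stop.atom_E (hω : ω ∈ DD V) (h : ω' ∈ atom V τ.X ω) : τ.E ω' = τ.E ω :=
  Stop.E_onE hω (Stop.atom_dd h) (Stop.atom_onE h)

theorem Stop.new_onE (hω : ω ∈ DD V) (hω' : ω' ∈ DD V) (h : OnE (τ.E ω) ω ω') :
    τ.New ω' ↔ τ.New ω := by
  obtain ⟨h1, _⟩ := τ.det ω hω ω' hω' h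
  have hs := h _ (start_mem_Eti (ω := ω) (xS := xS) (t := τ.t ω) (i := τ.i ω))
  unfold Stop.New
  rw [h1, hs.1, hs.2, Et_onE (h.mono Et_sub_Eti)]

theorem Stop.atom_new (hω : ω ∈ DD V) (h : ω' ∈ atom V τ.X ω) : τ.New ω' ↔ τ.New ω :=
  Stop.new_onE hω (Stop.atom_dd h) (Stop.atom_onE h)

theorem Stop.go_onE (hω : ω ∈ DD V) (hω' : ω' ∈ DD V) (h : OnE (τ.E ω) ω ω') {j : ℕ}
    (hj : j ≤ τ.i ω + 1) : go ω' (xS, τ.t ω') j = go ω (xS, τ.t ω) j := by
  rw [(τ.det ω hω ω' hω' h).1]
  exact go_onE' h j hj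

end

/-! ## Contour property -/

/-- **CP**: the unexplored faces have the contour property -/
theorem cp_Eti {T : Temp} (hω : ω ∈ DD T.V) : Skel.CP (OE T (Eti xS ω t i)) := by
  intro p hp r
  by_contra hcon
  push Not at hcon
  have hcon' : ∀ q : Pt, dinf p q = r → q ∈ OE T (Eti xS ω t i) := by
    intro q hq
    by_contra h
    exact hcon q h (L.dn_eq_iff.2 hq)
  have hring : ∀ f : Pt, dinf p f = r → ¬ Touch (Eti xS ω t i) f := fun f hf => (hcon' f hf).2
  have hbox : ∀ f : Pt, dinf p f ≤ r → f ∈ T.faceSet := fun f hf =>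
    box_faceSet (fun q hq => (hcon' q hq).1) hf
  have hr0 : (0 : ℤ) ≤ r := Int.natCast_nonneg r
  have hpf : p ∈ T.faceSet := hbox p (by
    simp only [dinf, sub_self, abs_zero, max_self]; exact hr0)
  have htouch : Touch (Eti xS ω t i) p := by
    by_contra h
    exact hp ⟨hpf, h⟩
  obtain ⟨v, hv, hvE⟩ := htouch
  -- interior vertices are vertices of the graph
  have hinV : ∀ u, InBox p r u → u ∈ T.V := fun u hu =>
    mem_V_of_faces hω (fun f hf => hbox f (hu.face hf))
  -- one step from an explored vertex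
  have step : ∀ u u', u ∈ Eti xS ω t i → InBox p r u → Adj u u' → InBox p r u' := by
    intro u u' hu hI hadj
    refine hI.adj ?_ hadj
    intro f hf he
    exact hring f he ⟨u, mem_facesAt.1 hf, hu⟩
  have hrpos : (1 : ℤ) ≤ r := by
    by_contra hr
    have hr' : (r : ℤ) = 0 := by omega
    have := hring p (by simp only [dinf, sub_self, abs_zero, max_self]; omega)
    exact this ⟨v, hv, hvE⟩
  have hvI : InBox p r v := by
    obtain ⟨a, b⟩ := v
    simp only [corners, mem_insert, mem_singleton, Prod.mk.injEq] at hv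
    refine ⟨?_, ?_, ?_, ?_⟩ <;> simp only <;> omega
  -- a point of the line inside the box
  have hline : ∃ y ≤ t, InBox p r (xS, y) := by
    rcases hvE with ⟨y, hy, hvc⟩ | ⟨j, hj, rfl⟩
    · refine ⟨y, hy.le, ?_⟩
      have hrev : Same ω v (xS, y) := L.same_symm hω hvc
      have key : ∀ u, Same ω v u → u ∈ Et xS ω t ∧ InBox p r u := by
        intro u hu
        induction hu with
        | refl => exact ⟨⟨y, hy, hvc⟩, hvI⟩
        | @tail a b _ hab ih =>
          have ha := hinV _ ih.2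
          refine ⟨Et_closed ih.1 (Relation.ReflTransGen.single hab), ?_⟩
          refine step a b (Et_sub_Eti ih.1) ih.2 ?_
          rcases hab with rfl | rfl
          · exact L.adj1 hω ha
          · exact L.adj2 hω ha
      exact (key _ hrev).2
    · refine ⟨t, le_rfl, ?_⟩
      have key : ∀ k ≤ j, InBox p r (go ω (xS, t) k) → InBox p r (xS, t) := by
        intro k
        induction k with
        | zero => intro _ h; rwa [go_zero] at h
        | succ k ih =>
          intro hk hI
          have hV := hinV _ hI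
          apply ih (by omega)
          refine step _ _ (go_mem_Eti (by omega)) hI ?_
          rcases go_succ_mem ω (xS, t) k with e | e
          · have e' : ω.1 (go ω (xS, t) (k + 1)) = go ω (xS, t) k := by rw [e, L.inv1 hω]
            have := L.adj1 hω hV
            rwa [e'] at this
          · have e' : ω.2 (go ω (xS, t) (k + 1)) = go ω (xS, t) k := by rw [e, L.inv2 hω]
            have := L.adj2 hω hV
            rwa [e'] at this
      exact key j le_rfl hvI
  obtain ⟨y, hy, hyI⟩ := hline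
  -- go down
  have down : ∀ n : ℕ, InBox p r (xS, y - n) := by
    intro n
    induction n with
    | zero => simpa using hyI
    | succ n ih =>
      have hmem : ((xS, y - n) : Pt) ∈ Eti xS ω t i := by
        by_cases hlt : y - n < t
        · exact Or.inl (line_mem_Et hlt)
        · have : y - n = t := by omega
          rw [this]
          exact start_mem_Eti
      have := step _ (xS, y - n - 1) hmem ih (by unfold Adj; simp)
      push_cast
      rwa [← sub_sub]
  have h1 := (down (y - (p.2 - r)).toNat).2.2.1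
  have h2 := hyI.2.2.1
  simp only at h1 h2
  have : ((y - (p.2 - r)).toNat : ℤ) = y - (p.2 - r) := Int.toNat_of_nonneg (by omega)
  omega

theorem Stop.cp {T : Temp} {τ : Stop T.V xS} (hω : ω ∈ DD T.V) : Skel.CP (OE T (τ.E ω)) :=
  cp_Eti hω

/-- the same property in the form of `G45` -/
theorem Stop.cpr {T : Temp} {τ : Stop T.V xS} (hω : ω ∈ DD T.V) : G45.CPr (OE T (τ.E ω)) :=
  cp_Eti hω

/-- **hin** -/
theorem Stop.hin {T : Temp} {τ : Stop T.V xS} (hω : ω ∈ DD T.V) {v : Pt}
    (hv : ∀ f : Pt, v.1 - 1 ≤ f.1 → f.1 ≤ v.1 → v.2 - 1 ≤ f.2 → f.2 ≤ v.2 →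
      f ∈ OE T (τ.E ω)) : v ∈ (τ.X ω).1 ∧ v ∈ (τ.X ω).2 :=
  hin_of hω hv

end Vale.Agent.P155.NT
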