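import Vale.Agent.P155.T862.Expl
import Vale.Agent.P155.T905.Sign
import Vale.Agent.P155.F.Arc

/-!
# P155, NT (limit loops are simple): definitions

Exploration of the loops met by the vertical line `{x = xS}`, from bottom to top.  `P = (t, i)`
(a time): all components which hit `(xS, y)`, `y < t`, and the first `i + 1` points of the path
of the loop of `s = (xS, t)`.
-/

namespace Vale.Agent.P155.NT

open Vale.Agent.P155 T802 T862 Finset

/-- everything hit by the line below `t` (the half line itself is included) -/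
def Et (xS : ℤ) (ω : Conf) (t : ℤ) : Set Pt := {v | ∃ y : ℤ, y < t ∧ v ∈ comp ω (xS, y)}

/-- first step of the path from `s`: to the right if possible, otherwise up (`(s.1, s.2 - 1)` is
explored when `s` is not).  The loop is followed counterclockwise: inner side on the left. -/
noncomputable def go (ω : Conf) (s : Pt) (i : ℕ) : Pt :=
  open Classical in
  if SW.suc ω s = (s.1 + 1, s.2) ∨ (SW.pre ω s ≠ (s.1 + 1, s.2) ∧ SW.suc ω s = (s.1, s.2 + 1))
  then (SW.suc ω)^[i] s else (SW.pre ω)^[i] s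

/-- explored vertices at time `(t, i)` -/
noncomputable def Eti (xS : ℤ) (ω : Conf) (t : ℤ) (i : ℕ) : Set Pt :=
  Et xS ω t ∪ {v | ∃ j ≤ i, v = go ω (xS, t) j}

/-- A stopping time of the exploration of the line `x = xS`: at the time `(t ω, i ω)` the point
`s = (xS, t ω)` lies on a loop `L` not explored before. -/
structure Stop (V : Finset Pt) (xS : ℤ) where
  t : Conf → ℤ
  i : Conf → ℕ
  uns : ∀ ω ∈ DD V, ∀ ω' ∈ DD V, T905.UEq ω ω' → t ω' = t ω ∧ i ω' = i ω
  det : ∀ ω ∈ DD V, ∀ ω' ∈ DD V, OnE (Eti xS ω (t ω) (i ω)) ω ω' → t ω' = t ω ∧ i ω' = i ω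

/-- the explored set -/
noncomputable def Stop.E {V : Finset Pt} {xS : ℤ} (τ : Stop V xS) (ω : Conf) : Set Pt :=
  Eti xS ω (τ.t ω) (τ.i ω)

/-- the loop which is being explored -/
def Stop.L {V : Finset Pt} {xS : ℤ} (τ : Stop V xS) (ω : Conf) : Set Pt := comp ω (xS, τ.t ω)

/-- `s` lies on a loop which is new -/
def Stop.New {V : Finset Pt} {xS : ℤ} (τ : Stop V xS) (ω : Conf) : Prop :=
  ω.1 (xS, τ.t ω) ≠ ω.2 (xS, τ.t ω) ∧ (xS, τ.t ω) ∉ Et xS ω (τ.t ω)

/-- the exploration -/
noncomputable def Stop.X {V : Finset Pt} {xS : ℤ} (τ : Stop V xS) : Expl :=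
  fun ω => unexp V (τ.E ω) ω

open Classical in
/-- boundary values: `1` on the faces surrounded by `L` (inner side), `0` on all others -/
noncomputable def Stop.bd {V : Finset Pt} {xS : ℤ} (τ : Stop V xS) (ω : Conf) (f : Pt) : ℝ :=
  if surr ω (τ.L ω) f then 1 else 0

/-- `H` is the harmonic measure of the inner side of the explored part of `L` at the time `τ`:
harmonic on the unexplored faces, `1` / `0` on all other faces inside / outside `L`. -/
def Stop.IsH {V : Finset Pt} {xS : ℤ} (τ : Stop V xS) (T : Temp) (ω : Conf) (H : Pt → ℝ) : Prop :=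
  (∀ f ∈ OE T (τ.E ω), lap H f = 0) ∧ ∀ f, f ∉ OE T (τ.E ω) → H f = τ.bd ω f

end Vale.Agent.P155.NT
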