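import Vale.Agent.P155.NT.Defs
import Vale.Agent.P155.T802.Own
import Vale.Agent.P155.T862.Cont

/-!
# P155, NT block A1: Markov property and unsigned invariance of the exploration (helper902)
-/

namespace Vale.Agent.P155.NT

open Vale.Agent.P155 T802 T862 Finset

variable {V : Finset Pt} {ω ω' : Conf} {xS t : ℤ} {i : ℕ}

/-! ## Components -/

theorem compW_empty (ω : Conf) (v : Pt) : compW ∅ ω v = comp ω v := by
  unfold compW comp SameW Same
  simp

theorem comp_onE {E : Set Pt} (h : OnE E ω ω') {v : Pt} (hK : comp ω v ⊆ E) :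
    comp ω' v = comp ω v := by
  rw [← compW_empty, ← compW_empty]
  exact h.compW (by rwa [compW_empty])

theorem Et_mono {s t : ℤ} (h : s ≤ t) : Et xS ω s ⊆ Et xS ω t := by
  rintro v ⟨y, hy, hv⟩
  exact ⟨y, by omega, hv⟩

theorem self_mem_comp (ω : Conf) (v : Pt) : v ∈ comp ω v := Relation.ReflTransGen.refl

theorem line_mem_Et {y : ℤ} (h : y < t) : (xS, y) ∈ Et xS ω t := ⟨y, h, self_mem_comp _ _⟩

theorem comp_sub_Et {y : ℤ} (h : y < t) : comp ω (xS, y) ⊆ Et xS ω t := fun _ hv => ⟨y, h, hv⟩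

theorem Et_onE (h : OnE (Et xS ω t) ω ω') : Et xS ω' t = Et xS ω t := by
  have key : ∀ y < t, comp ω' (xS, y) = comp ω (xS, y) := fun y hy =>
    comp_onE h (comp_sub_Et hy)
  ext v
  constructor
  · rintro ⟨y, hy, hv⟩
    exact ⟨y, hy, by rwa [← key y hy]⟩
  · rintro ⟨y, hy, hv⟩
    exact ⟨y, hy, by rwa [key y hy]⟩

/-- `Et` is a union of components -/
theorem Et_closed {v : Pt} (h : v ∈ Et xS ω t) : comp ω v ⊆ Et xS ω t := by
  obtain ⟨y, hy, hv⟩ := h
  intro u hu
  exact ⟨y, hy, Relation.ReflTransGen.trans hv hu⟩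

theorem mem_Et_of_comp (hω : ω ∈ DD V) {u v : Pt} (hu : u ∈ Et xS ω t) (h : u ∈ comp ω v) :
    v ∈ Et xS ω t :=
  Et_closed hu (L.same_symm hω h)

/-! ## The path -/

@[simp] theorem go_zero (ω : Conf) (s : Pt) : go ω s 0 = s := by
  unfold go
  split_ifs <;> rfl

theorem suc_congr {v : Pt} (h : ω'.1 v = ω.1 v ∧ ω'.2 v = ω.2 v) :
    SW.suc ω' v = SW.suc ω v := by
  unfold SW.suc
  rw [h.1, h.2]

theorem pre_congr {v : Pt} (h : ω'.1 v = ω.1 v ∧ ω'.2 v = ω.2 v) :
    SW.pre ω' v = SW.pre ω v := by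
  unfold SW.pre
  rw [h.1, h.2]

/-- direction of the path: `true` if it follows `suc` -/
def Dir1 (ω : Conf) (s : Pt) : Prop :=
  SW.suc ω s = (s.1 + 1, s.2) ∨ (SW.pre ω s ≠ (s.1 + 1, s.2) ∧ SW.suc ω s = (s.1, s.2 + 1))

theorem go_pos {s : Pt} (h : Dir1 ω s) (i : ℕ) : go ω s i = (SW.suc ω)^[i] s := by
  unfold Dir1 at h
  unfold go
  rw [if_pos h]

theorem go_neg {s : Pt} (h : ¬ Dir1 ω s) (i : ℕ) : go ω s i = (SW.pre ω)^[i] s := by
  unfold Dir1 at h
  unfold go
  rw [if_neg h]

theorem dir1_congr {s : Pt} (h : ω'.1 s = ω.1 s ∧ ω'.2 s = ω.2 s) : Dir1 ω' s ↔ Dir1 ω s := by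
  unfold Dir1
  rw [suc_congr h, pre_congr h]

/-- the next point of the path is one of the partners of the last one -/
theorem go_succ_mem (ω : Conf) (s : Pt) (i : ℕ) :
    go ω s (i + 1) = ω.1 (go ω s i) ∨ go ω s (i + 1) = ω.2 (go ω s i) := by
  by_cases h : Dir1 ω s
  · rw [go_pos h, go_pos h, Function.iterate_succ_apply']
    unfold SW.suc
    split_ifs
    · exact Or.inl rfl
    · exact Or.inr rfl
  · rw [go_neg h, go_neg h, Function.iterate_succ_apply']
    unfold SW.pre
    split_ifs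
    · exact Or.inr rfl
    · exact Or.inl rfl

theorem go_same (ω : Conf) (s : Pt) (i : ℕ) : Same ω s (go ω s i) := by
  induction i with
  | zero => rw [go_zero]; exact Relation.ReflTransGen.refl
  | succ i ih => exact Relation.ReflTransGen.tail ih (go_succ_mem ω s i)

theorem go_mem_comp (ω : Conf) (s : Pt) (i : ℕ) : go ω s i ∈ comp ω s := go_same ω s i

/-- the path is determined by the edges at its points -/
theorem go_onE {s : Pt} (h : ∀ j ≤ i, ω'.1 (go ω s j) = ω.1 (go ω s j) ∧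
    ω'.2 (go ω s j) = ω.2 (go ω s j)) : ∀ j ≤ i + 1, go ω' s j = go ω s j := by
  have h0 := h 0 (Nat.zero_le _)
  rw [go_zero] at h0
  intro j
  induction j with
  | zero => intro _; rw [go_zero, go_zero]
  | succ j ih =>
    intro hj
    have e := ih (by omega)
    have hj' := h j (by omega)
    by_cases hd : Dir1 ω s
    · have hd' := (dir1_congr h0).2 hd
      rw [go_pos hd, go_pos hd'] at e
      rw [go_pos hd] at hj'
      rw [go_pos hd, go_pos hd', Function.iterate_succ_apply', Function.iterate_succ_apply', e]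
      exact suc_congr hj'
    · have hd' : ¬ Dir1 ω' s := fun hh => hd ((dir1_congr h0).1 hh)
      rw [go_neg hd, go_neg hd'] at e
      rw [go_neg hd] at hj'
      rw [go_neg hd, go_neg hd', Function.iterate_succ_apply', Function.iterate_succ_apply', e]
      exact pre_congr hj'

theorem Et_sub_Eti : Et xS ω t ⊆ Eti xS ω t i := fun _ h => Or.inl h

theorem go_mem_Eti {j : ℕ} (h : j ≤ i) : go ω (xS, t) j ∈ Eti xS ω t i := Or.inr ⟨j, h, rfl⟩

theorem start_mem_Eti : (xS, t) ∈ Eti xS ω t i := by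
  have := go_mem_Eti (ω := ω) (xS := xS) (t := t) (Nat.zero_le i)
  rwa [go_zero] at this

theorem Eti_mono {j : ℕ} (h : j ≤ i) : Eti xS ω t j ⊆ Eti xS ω t i := by
  rintro v (hv | ⟨k, hk, rfl⟩)
  · exact Or.inl hv
  · exact go_mem_Eti (hk.trans h)

theorem go_onE' (h : OnE (Eti xS ω t i) ω ω') : ∀ j ≤ i + 1,
    go ω' (xS, t) j = go ω (xS, t) j :=
  go_onE fun _ hj => h _ (go_mem_Eti hj)

theorem Eti_onE (h : OnE (Eti xS ω t i) ω ω') : Eti xS ω' t i = Eti xS ω t i := by
  unfold Eti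
  rw [Et_onE (h.mono Et_sub_Eti)]
  congr 1
  ext v
  constructor
  · rintro ⟨j, hj, rfl⟩
    exact ⟨j, hj, go_onE' h j (by omega)⟩
  · rintro ⟨j, hj, rfl⟩
    exact ⟨j, hj, (go_onE' h j (by omega)).symm⟩

/-! ## Markov property -/

variable {τ : Stop V xS}

theorem Stop.E_onE (hω : ω ∈ DD V) (hω' : ω' ∈ DD V) (h : OnE (τ.E ω) ω ω') :
    τ.E ω' = τ.E ω := by
  obtain ⟨h1, h2⟩ := τ.det ω hω ω' hω' h
  unfold Stop.E
  rw [h1, h2]
  exact Eti_onE h

/-- **NT-A: Markov property** -/
theorem Stop.isExpl (τ : Stop V xS) : IsExpl V τ.X :=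
  isExpl_of fun _ hω _ hω' h => Stop.E_onE hω hω' h

theorem Stop.X_onE (hω : ω ∈ DD V) (hω' : ω' ∈ DD V) (h : OnE (τ.E ω) ω ω') :
    τ.X ω' = τ.X ω := by
  unfold Stop.X
  rw [Stop.E_onE hω hω' h]
  exact unexp_eq hω hω' h

/-- agreement off the unexplored set is agreement on `E` -/
theorem Stop.onE_of_agree (h : AgreeOff (τ.X ω) ω ω') : OnE (τ.E ω) ω ω' :=
  T862.onE_of_agree h

/-! ## Unsigned invariance -/

theorem uns_of_uEq (h : T905.UEq ω ω') : Uns ω ω' := h

theorem comp_uns (h : T905.UEq ω ω') (v : Pt) : comp ω' v = comp ω v := by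
  rw [← compW_empty, ← compW_empty]
  exact (uns_of_uEq h).compW ∅ v

theorem Et_uns (h : T905.UEq ω ω') : Et xS ω' t = Et xS ω t := by
  unfold Et
  simp only [comp_uns h]

theorem ne_uns (h : T905.UEq ω ω') (v : Pt) : ω'.1 v ≠ ω'.2 v ↔ ω.1 v ≠ ω.2 v := by
  rcases h v with ⟨h1, h2⟩ | ⟨h1, h2⟩
  · rw [h1, h2]
  · rw [h1, h2]
    exact ⟨fun h => h.symm, fun h => h.symm⟩

theorem loops_uns (h : T905.UEq ω ω') : Loops ω' = Loops ω := by
  unfold Loops
  ext L
  simp only [Set.mem_ofPred_eq, comp_uns h, ne_uns h]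

theorem vedgeL_uns (h : T905.UEq ω ω') (A : Set Pt) (j y : ℤ) :
    vedgeL ω' A j y ↔ vedgeL ω A j y := by
  unfold vedgeL
  have e := (uns_of_uEq h).step (j, y) (j, y + 1)
  constructor
  · rintro ⟨h1, h2⟩
    exact ⟨h1, (e.1 (h2.imp Eq.symm Eq.symm)).imp Eq.symm Eq.symm⟩
  · rintro ⟨h1, h2⟩
    exact ⟨h1, (e.2 (h2.imp Eq.symm Eq.symm)).imp Eq.symm Eq.symm⟩

theorem surr_uns (h : T905.UEq ω ω') (A : Set Pt) (f : Pt) : surr ω' A f ↔ surr ω A f := by
  unfold surr
  simp only [vedgeL_uns h]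

/-- on a component the two configurations are either equal or swapped -/
theorem uns_comp (hω : ω ∈ DD V) (hω' : ω' ∈ DD V) (h : T905.UEq ω ω') (v : Pt) :
    (∀ u ∈ comp ω v, ω'.1 u = ω.1 u ∧ ω'.2 u = ω.2 u) ∨
    (∀ u ∈ comp ω v, ω'.1 u = ω.2 u ∧ ω'.2 u = ω.1 u) := by
  rcases h v with hv | hv
  · left
    intro u hu
    induction hu with
    | refl => exact hv
    | @tail a b _ hab ih =>
      rcases h b with hb | hb
      · exact hb
      · rcases hab with rfl | rfl
        · have e1 : ω'.1 (ω.1 a) = a := by rw [← ih.1, L.inv1 hω']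
          have e2 : ω.2 (ω.1 a) = a := by rw [← hb.1, e1]
          have e3 : ω.1 (ω.1 a) = a := L.inv1 hω a
          exact ⟨by rw [e1, e3], by rw [hb.2, e3, e2]⟩
        · have e1 : ω'.2 (ω.2 a) = a := by rw [← ih.2, L.inv2 hω']
          have e2 : ω.1 (ω.2 a) = a := by rw [← hb.2, e1]
          have e3 : ω.2 (ω.2 a) = a := L.inv2 hω a
          exact ⟨by rw [hb.1, e3, e2], by rw [e1, e3]⟩
  · right
    intro u hu
    induction hu with
    | refl => exact hv
    | @tail a b _ hab ih =>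
      rcases h b with hb | hb
      · rcases hab with rfl | rfl
        · have e1 : ω'.2 (ω.1 a) = a := by rw [← ih.2, L.inv2 hω']
          have e2 : ω.2 (ω.1 a) = a := by rw [← hb.2, e1]
          have e3 : ω.1 (ω.1 a) = a := L.inv1 hω a
          exact ⟨by rw [hb.1, e3, e2], by rw [e1, e3]⟩
        · have e1 : ω'.1 (ω.2 a) = a := by rw [← ih.1, L.inv1 hω']
          have e2 : ω.1 (ω.2 a) = a := by rw [← hb.1, e1]
          have e3 : ω.2 (ω.2 a) = a := L.inv2 hω a
          exact ⟨by rw [e1, e3], by rw [hb.2, e3, e2]⟩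
      · exact hb

theorem eq_of_mem_comp (hω : ω ∈ DD V) {v u : Pt} (he : ω.1 v = ω.2 v) (hu : u ∈ comp ω v) :
    ω.1 u = ω.2 u := by
  by_contra hne
  have hv : v ∈ comp ω u := L.same_symm hω hu
  exact L.ne_of_mem_comp hω hne hv he

theorem suc_pre_eq {v : Pt} (he : ω.1 v = ω.2 v) : SW.suc ω v = SW.pre ω v := by
  unfold SW.suc SW.pre
  rw [he]

theorem suc_ne_pre {v : Pt} (he : ω.1 v ≠ ω.2 v) : SW.suc ω v ≠ SW.pre ω v := by
  unfold SW.suc SW.pre
  split_ifs
  · exact he
  · exact he.symm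

theorem suc_cases (ω : Conf) (v : Pt) : SW.suc ω v = ω.1 v ∨ SW.suc ω v = ω.2 v := by
  unfold SW.suc
  split_ifs
  · exact Or.inl rfl
  · exact Or.inr rfl

theorem pre_cases (ω : Conf) (v : Pt) : SW.pre ω v = ω.1 v ∨ SW.pre ω v = ω.2 v := by
  unfold SW.pre
  split_ifs
  · exact Or.inr rfl
  · exact Or.inl rfl

theorem iter_suc_mem (ω : Conf) (s : Pt) (i : ℕ) : (SW.suc ω)^[i] s ∈ comp ω s := by
  induction i with
  | zero => exact Relation.ReflTransGen.refl
  | succ i ih =>
    rw [Function.iterate_succ_apply']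
    exact Relation.ReflTransGen.tail ih (suc_cases ω _)

theorem iter_pre_mem (ω : Conf) (s : Pt) (i : ℕ) : (SW.pre ω)^[i] s ∈ comp ω s := by
  induction i with
  | zero => exact Relation.ReflTransGen.refl
  | succ i ih =>
    rw [Function.iterate_succ_apply']
    exact Relation.ReflTransGen.tail ih (pre_cases ω _)

theorem adj_cases (hω : ω ∈ DD V) {s : Pt} (hs : s ∈ V) {u : Pt} (hu : u = ω.1 s ∨ u = ω.2 s) :
    u = (s.1 + 1, s.2) ∨ u = (s.1 - 1, s.2) ∨ u = (s.1, s.2 + 1) ∨ u = (s.1, s.2 - 1) := by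
  have h : Adj s u := by
    rcases hu with rfl | rfl
    · exact L.adj1 hω hs
    · exact L.adj2 hω hs
  have := mem_nbrs.2 h
  simpa only [nbrs, mem_insert, mem_singleton] using this

/-- the path is unsigned -/
theorem go_uns (hω : ω ∈ DD V) (hω' : ω' ∈ DD V) (h : T905.UEq ω ω') {s : Pt}
    (h1 : ω.1 s ≠ (s.1, s.2 - 1)) (h2 : ω.2 s ≠ (s.1, s.2 - 1)) (i : ℕ) :
    go ω' s i = go ω s i := by
  rcases uns_comp hω hω' h s with hc | hc
  · exact go_onE (i := i) (fun j _ => hc _ (go_mem_comp ω s j)) i (by omega)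
  · have hs := hc s (self_mem_comp ω s)
    have esuc : ∀ u ∈ comp ω s, SW.suc ω' u = SW.pre ω u := by
      intro u hu
      unfold SW.suc SW.pre
      rw [(hc u hu).1, (hc u hu).2]
    have epre : ∀ u ∈ comp ω s, SW.pre ω' u = SW.suc ω u := by
      intro u hu
      unfold SW.suc SW.pre
      rw [(hc u hu).1, (hc u hu).2]
    have isuc : ∀ n, (SW.suc ω')^[n] s = (SW.pre ω)^[n] s := by
      intro n
      induction n with
      | zero => rfl
      | succ n ih =>
        rw [Function.iterate_succ_apply', Function.iterate_succ_apply', ih]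
        exact esuc _ (iter_pre_mem ω s n)
    have ipre : ∀ n, (SW.pre ω')^[n] s = (SW.suc ω)^[n] s := by
      intro n
      induction n with
      | zero => rfl
      | succ n ih =>
        rw [Function.iterate_succ_apply', Function.iterate_succ_apply', ih]
        exact epre _ (iter_suc_mem ω s n)
    by_cases he : ω.1 s = ω.2 s
    · -- doubled edge (or fixed point)
      have esp : ∀ u ∈ comp ω s, SW.suc ω u = SW.pre ω u := fun u hu =>
        suc_pre_eq (eq_of_mem_comp hω he hu)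
      have isp : ∀ n, (SW.suc ω)^[n] s = (SW.pre ω)^[n] s := by
        intro n
        induction n with
        | zero => rfl
        | succ n ih =>
          rw [Function.iterate_succ_apply', Function.iterate_succ_apply', ih]
          exact esp _ (iter_pre_mem ω s n)
      have a : ∀ n, go ω s n = (SW.suc ω)^[n] s := by
        intro n
        by_cases hd : Dir1 ω s
        · exact go_pos hd n
        · rw [go_neg hd, isp]
      have b : ∀ n, go ω' s n = (SW.suc ω)^[n] s := by
        intro n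
        by_cases hd : Dir1 ω' s
        · rw [go_pos hd, isuc, isp]
        · rw [go_neg hd, ipre]
      rw [a, b]
    · have hV : s ∈ V := L.mem_V_of_ne hω he
      have hne := suc_ne_pre he
      have cA := adj_cases hω hV (suc_cases ω s)
      have cB := adj_cases hω hV (pre_cases ω s)
      have nA : SW.suc ω s ≠ (s.1, s.2 - 1) := by
        rcases suc_cases ω s with e | e <;> rw [e] <;> assumption
      have nB : SW.pre ω s ≠ (s.1, s.2 - 1) := by
        rcases pre_cases ω s with e | e <;> rw [e] <;> assumption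
      have es := esuc s (self_mem_comp ω s)
      have ep := epre s (self_mem_comp ω s)
      have hswap : Dir1 ω' s ↔ ¬ Dir1 ω s := by
        unfold Dir1
        rw [es, ep]
        generalize SW.suc ω s = A at *
        generalize SW.pre ω s = B at *
        constructor
        · rintro (hB | ⟨hA, hB⟩) (hA' | ⟨hB', hA'⟩)
          · exact hne (hA'.trans hB.symm)
          · exact hB' hB
          · exact hA hA'
          · exact hne (hA'.trans hB.symm)
        · intro hn
          push Not at hn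
          by_cases hB : B = (s.1 + 1, s.2)
          · exact Or.inl hB
          · right
            refine ⟨hn.1, ?_⟩
            have hAu := hn.2 hB
            have hAl : A = (s.1 - 1, s.2) := by
              rcases cA with e | e | e | e
              · exact absurd e hn.1
              · exact e
              · exact absurd e hAu
              · exact absurd e nA
            rcases cB with e | e | e | e
            · exact absurd e hB
            · exact absurd (hAl.trans e.symm) hne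
            · exact e
            · exact absurd e nB
      by_cases hd : Dir1 ω s
      · have hd' : ¬ Dir1 ω' s := fun hh => (hswap.1 hh) hd
        rw [go_pos hd, go_neg hd', ipre]
      · have hd' : Dir1 ω' s := hswap.2 hd
        rw [go_neg hd, go_pos hd', isuc]

theorem no_down (hω : ω ∈ DD V) (hs : (xS, t) ∉ Et xS ω t) :
    ω.1 (xS, t) ≠ (xS, t - 1) ∧ ω.2 (xS, t) ≠ (xS, t - 1) := by
  constructor
  · intro h
    apply hs
    refine mem_Et_of_comp hω (line_mem_Et (y := t - 1) (by omega)) ?_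
    exact Relation.ReflTransGen.single (Or.inl h.symm)
  · intro h
    apply hs
    refine mem_Et_of_comp hω (line_mem_Et (y := t - 1) (by omega)) ?_
    exact Relation.ReflTransGen.single (Or.inr h.symm)

theorem go_uns' (hω : ω ∈ DD V) (hω' : ω' ∈ DD V) (h : T905.UEq ω ω')
    (hs : (xS, t) ∉ Et xS ω t) (i : ℕ) : go ω' (xS, t) i = go ω (xS, t) i :=
  go_uns hω hω' h (no_down hω hs).1 (no_down hω hs).2 i

theorem Eti_of_mem (hs : (xS, t) ∈ Et xS ω t) : Eti xS ω t i = Et xS ω t := by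
  unfold Eti
  apply Set.union_eq_self_of_subset_right
  rintro v ⟨j, _, rfl⟩
  exact Et_closed hs (go_mem_comp ω _ j)

/-- the explored set is unsigned -/
theorem Eti_uns (hω : ω ∈ DD V) (hω' : ω' ∈ DD V) (h : T905.UEq ω ω') :
    Eti xS ω' t i = Eti xS ω t i := by
  by_cases hs : (xS, t) ∈ Et xS ω t
  · rw [Eti_of_mem hs, Eti_of_mem (by rwa [Et_uns h]), Et_uns h]
  · unfold Eti
    rw [Et_uns h]
    simp only [go_uns' hω hω' h hs]

/-- **NT-A: the explored set is unsigned** -/
theorem Stop.E_uns (τ : Stop V xS) (hω : ω ∈ DD V) (hω' : ω' ∈ DD V) (h : T905.UEq ω ω') :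
    τ.E ω' = τ.E ω := by
  obtain ⟨h1, h2⟩ := τ.uns ω hω ω' hω' h
  unfold Stop.E
  rw [h1, h2]
  exact Eti_uns hω hω' h

theorem Stop.E_uinv (τ : Stop V xS) : T905.UInv V τ.E := fun _ hω _ hω' h => τ.E_uns hω hω' h

theorem Stop.L_uns (τ : Stop V xS) (hω : ω ∈ DD V) (hω' : ω' ∈ DD V) (h : T905.UEq ω ω') :
    τ.L ω' = τ.L ω := by
  unfold Stop.L
  rw [(τ.uns ω hω ω' hω' h).1, comp_uns h]

theorem Stop.L_uinv (τ : Stop V xS) : T905.UInv V τ.L := fun _ hω _ hω' h => τ.L_uns hω hω' h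

theorem Stop.new_uns (τ : Stop V xS) (hω : ω ∈ DD V) (hω' : ω' ∈ DD V) (h : T905.UEq ω ω') :
    τ.New ω' ↔ τ.New ω := by
  unfold Stop.New
  rw [(τ.uns ω hω ω' hω' h).1, Et_uns h, ne_uns h]

theorem Stop.bd_uns (τ : Stop V xS) (hω : ω ∈ DD V) (hω' : ω' ∈ DD V) (h : T905.UEq ω ω') :
    τ.bd ω' = τ.bd ω := by
  funext f
  unfold Stop.bd
  rw [τ.L_uns hω hω' h]
  by_cases hf : surr ω (τ.L ω) f
  · rw [if_pos hf, if_pos ((surr_uns h _ _).2 hf)]
  · rw [if_neg hf, if_neg (fun hh => hf ((surr_uns h _ _).1 hh))]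

theorem Stop.bd_uinv (τ : Stop V xS) : T905.UInv V τ.bd := fun _ hω _ hω' h => τ.bd_uns hω hω' h

theorem Stop.L_mem (hN : τ.New ω) : τ.L ω ∈ Loops ω := ⟨_, hN.1, rfl⟩

end Vale.Agent.P155.NT
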