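import Vale.Agent.P155.NT.Cont

/-!
# P155, NT block A1: the explored faces and the loop `L` (helper902)

Faces touching `Et` are not surrounded by `L`; the boundary values are determined by the explored
edges.
-/

namespace Vale.Agent.P155.NT

open Vale.Agent.P155 T802 T862 Finset

variable {V : Finset Pt} {ω ω' : Conf} {xS t : ℤ} {i : ℕ}

/-! ## Edges of a loop at a vertex -/

theorem eA_up (hω : ω ∈ DD V) {A : Set Pt} (hA : A ∈ Loops ω) (u : Pt) :
    eA ω A u = ind (u ∈ A ∧ (ω.1 u = (u.1, u.2 + 1) ∨ ω.2 u = (u.1, u.2 + 1))) :=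
  eA_loop hω hA u

theorem eA_down (hω : ω ∈ DD V) {A : Set Pt} (hA : A ∈ Loops ω) (u : Pt) :
    eA ω A (u.1, u.2 - 1) =
      ind (u ∈ A ∧ (ω.1 u = (u.1, u.2 - 1) ∨ ω.2 u = (u.1, u.2 - 1))) := by
  rw [eA_loop hω hA]
  apply ind_congr
  unfold vedgeL
  simp only [sub_add_cancel]
  constructor
  · rintro ⟨h, h1 | h1⟩
    · have h1' : ω.1 u = (u.1, u.2 - 1) := by
        have := L.inv1 hω (u.1, u.2 - 1)
        rwa [h1] at this
      exact ⟨by have := L.loop_m1 hA h; rwa [h1] at this, Or.inl h1'⟩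
    · have h1' : ω.2 u = (u.1, u.2 - 1) := by
        have := L.inv2 hω (u.1, u.2 - 1)
        rwa [h1] at this
      exact ⟨by have := L.loop_m2 hA h; rwa [h1] at this, Or.inr h1'⟩
  · rintro ⟨h, h1 | h1⟩
    · refine ⟨h1 ▸ L.loop_m1 hA h, Or.inl ?_⟩
      rw [← h1, L.inv1 hω]
    · refine ⟨h1 ▸ L.loop_m2 hA h, Or.inr ?_⟩
      rw [← h1, L.inv2 hω]

theorem eB_right (hω : ω ∈ DD V) {A : Set Pt} (hA : A ∈ Loops ω) (v : Pt) :
    eB ω A v = ind (v ∈ A ∧ (ω.1 v = (v.1 + 1, v.2) ∨ ω.2 v = (v.1 + 1, v.2))) := by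
  unfold eB
  by_cases hv : v ∈ A
  · have hne := L.loop_ne hω hA hv
    by_cases h1 : ω.1 v = (v.1 + 1, v.2)
    · have h2 : ω.2 v ≠ (v.1 + 1, v.2) := fun h => hne (h1.trans h.symm)
      rw [ind_true ⟨Or.inl hv, h1⟩, ind_false (fun h => h2 h.2), ind_true ⟨hv, Or.inl h1⟩, add_zero]
    · by_cases h2 : ω.2 v = (v.1 + 1, v.2)
      · rw [ind_false (fun h => h1 h.2), ind_true ⟨Or.inl hv, h2⟩, ind_true ⟨hv, Or.inr h2⟩,
          zero_add]
      · rw [ind_false (fun h => h1 h.2), ind_false (fun h => h2 h.2),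
          ind_false (fun h => h.2.elim h1 h2), zero_add]
  · have n1 : ¬ ((v ∈ A ∨ (v.1 + 1, v.2) ∈ A) ∧ ω.1 v = (v.1 + 1, v.2)) := by
      rintro ⟨h, e⟩
      have := L.loop_m1 hA (h.resolve_left hv)
      rw [← e, L.inv1 hω] at this
      exact hv this
    have n2 : ¬ ((v ∈ A ∨ (v.1 + 1, v.2) ∈ A) ∧ ω.2 v = (v.1 + 1, v.2)) := by
      rintro ⟨h, e⟩
      have := L.loop_m2 hA (h.resolve_left hv)
      rw [← e, L.inv2 hω] at this
      exact hv this
    rw [ind_false n1, ind_false n2, ind_false (fun h => hv h.1), add_zero]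

theorem eB_left (hω : ω ∈ DD V) {A : Set Pt} (hA : A ∈ Loops ω) (u : Pt) :
    eB ω A (u.1 - 1, u.2) =
      ind (u ∈ A ∧ (ω.1 u = (u.1 - 1, u.2) ∨ ω.2 u = (u.1 - 1, u.2))) := by
  rw [eB_right hω hA]
  apply ind_congr
  simp only [sub_add_cancel]
  constructor
  · rintro ⟨h, h1 | h1⟩
    · have h1' : ω.1 u = (u.1 - 1, u.2) := by
        have := L.inv1 hω (u.1 - 1, u.2)
        rwa [h1] at this
      exact ⟨by have := L.loop_m1 hA h; rwa [h1] at this, Or.inl h1'⟩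
    · have h1' : ω.2 u = (u.1 - 1, u.2) := by
        have := L.inv2 hω (u.1 - 1, u.2)
        rwa [h1] at this
      exact ⟨by have := L.loop_m2 hA h; rwa [h1] at this, Or.inr h1'⟩
  · rintro ⟨h, h1 | h1⟩
    · refine ⟨h1 ▸ L.loop_m1 hA h, Or.inl ?_⟩
      rw [← h1, L.inv1 hω]
    · refine ⟨h1 ▸ L.loop_m2 hA h, Or.inr ?_⟩
      rw [← h1, L.inv2 hω]

/-- the four steps around a vertex -/
theorem surr_steps (hω : ω ∈ DD V) {A : Set Pt} (hA : A ∈ Loops ω) (u : Pt) :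
    ind (surr ω A (u.1, u.2)) = ind (surr ω A (u.1 - 1, u.2)) +
      ind (u ∈ A ∧ (ω.1 u = (u.1, u.2 + 1) ∨ ω.2 u = (u.1, u.2 + 1))) ∧
    ind (surr ω A (u.1, u.2)) = ind (surr ω A (u.1, u.2 - 1)) +
      ind (u ∈ A ∧ (ω.1 u = (u.1 + 1, u.2) ∨ ω.2 u = (u.1 + 1, u.2))) ∧
    ind (surr ω A (u.1 - 1, u.2)) = ind (surr ω A (u.1 - 1, u.2 - 1)) +
      ind (u ∈ A ∧ (ω.1 u = (u.1 - 1, u.2) ∨ ω.2 u = (u.1 - 1, u.2))) ∧
    ind (surr ω A (u.1, u.2 - 1)) = ind (surr ω A (u.1 - 1, u.2 - 1)) +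
      ind (u ∈ A ∧ (ω.1 u = (u.1, u.2 - 1) ∨ ω.2 u = (u.1, u.2 - 1))) := by
  have hev := loop_even hω hA
  rw [← eA_up hω hA, ← eA_down hω hA, ← eB_right hω hA, ← eB_left hω hA]
  simp only [surr_par hω hA]
  exact ⟨par_right hev u.1 u.2, par_up hev u.1 u.2, par_up hev (u.1 - 1) u.2,
    par_right hev u.1 (u.2 - 1)⟩

/-- a loop takes the same value on all faces around a vertex off it -/
theorem surr_around (hω : ω ∈ DD V) {A : Set Pt} (hA : A ∈ Loops ω) {u : Pt} (hu : u ∉ A)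
    {f g : Pt} (hf : f ∈ facesAt u) (hg : g ∈ facesAt u) : surr ω A f ↔ surr ω A g := by
  obtain ⟨h1, h2, h3, h4⟩ := surr_steps hω hA u
  have z : ∀ P : Prop, ind (u ∈ A ∧ P) = 0 := fun P => ind_false (fun h => hu h.1)
  rw [z, add_zero] at h1 h2 h3 h4
  have key : ∀ a b : Prop, ind a = ind b → (a ↔ b) := by
    intro a b h
    by_cases ha : a
    · by_cases hb : b
      · exact ⟨fun _ => hb, fun _ => ha⟩
      · rw [ind_true ha, ind_false hb] at h
        exact absurd h (by decide)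
    · by_cases hb : b
      · rw [ind_false ha, ind_true hb] at h
        exact absurd h (by decide)
      · exact ⟨fun h => absurd h ha, fun h => absurd h hb⟩
  have e1 := key _ _ h1
  have e2 := key _ _ h2
  have e3 := key _ _ h3
  have e4 := key _ _ h4
  unfold facesAt at hf hg
  simp only [mem_insert, mem_singleton] at hf hg
  rcases hf with rfl | rfl | rfl | rfl <;> rcases hg with rfl | rfl | rfl | rfl <;> tauto

/-- the differences of the values around a vertex are determined by the edges at the vertex -/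
theorem surr_det (hω : ω ∈ DD V) {A : Set Pt} (hA : A ∈ Loops ω) (hω' : ω' ∈ DD V) {A' : Set Pt}
    (hA' : A' ∈ Loops ω') {u : Pt} (hu : u ∈ A ↔ u ∈ A') (h : ω'.1 u = ω.1 u ∧ ω'.2 u = ω.2 u)
    {f g : Pt} (hf : f ∈ facesAt u) (hg : g ∈ facesAt u) (hfe : surr ω' A' f ↔ surr ω A f) :
    surr ω' A' g ↔ surr ω A g := by
  obtain ⟨h1, h2, h3, h4⟩ := surr_steps hω hA u
  obtain ⟨k1, k2, k3, k4⟩ := surr_steps hω' hA' u
  rw [h.1, h.2] at k1 k2 k3 k4
  rw [ind_congr (show (u ∈ A' ∧ (ω.1 u = (u.1, u.2 + 1) ∨ ω.2 u = (u.1, u.2 + 1))) ↔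
    (u ∈ A ∧ (ω.1 u = (u.1, u.2 + 1) ∨ ω.2 u = (u.1, u.2 + 1))) by rw [hu])] at k1
  rw [ind_congr (show (u ∈ A' ∧ (ω.1 u = (u.1 + 1, u.2) ∨ ω.2 u = (u.1 + 1, u.2))) ↔
    (u ∈ A ∧ (ω.1 u = (u.1 + 1, u.2) ∨ ω.2 u = (u.1 + 1, u.2))) by rw [hu])] at k2
  rw [ind_congr (show (u ∈ A' ∧ (ω.1 u = (u.1 - 1, u.2) ∨ ω.2 u = (u.1 - 1, u.2))) ↔
    (u ∈ A ∧ (ω.1 u = (u.1 - 1, u.2) ∨ ω.2 u = (u.1 - 1, u.2))) by rw [hu])] at k3
  rw [ind_congr (show (u ∈ A' ∧ (ω.1 u = (u.1, u.2 - 1) ∨ ω.2 u = (u.1, u.2 - 1))) ↔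
    (u ∈ A ∧ (ω.1 u = (u.1, u.2 - 1) ∨ ω.2 u = (u.1, u.2 - 1))) by rw [hu])] at k4
  have key : ∀ a b : Prop, (a ↔ b) ↔ ind a + ind b = 0 := by
    intro a b
    constructor
    · exact ind_add_eq_zero
    · intro hab
      by_contra hn
      rw [ind_add_eq_one hn] at hab
      exact absurd hab (by decide)
  rw [key] at hfe ⊢
  generalize ind (u ∈ A ∧ (ω.1 u = (u.1, u.2 + 1) ∨ ω.2 u = (u.1, u.2 + 1))) = a1 at *
  generalize ind (u ∈ A ∧ (ω.1 u = (u.1 + 1, u.2) ∨ ω.2 u = (u.1 + 1, u.2))) = a2 at *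
  generalize ind (u ∈ A ∧ (ω.1 u = (u.1 - 1, u.2) ∨ ω.2 u = (u.1 - 1, u.2))) = a3 at *
  generalize ind (u ∈ A ∧ (ω.1 u = (u.1, u.2 - 1) ∨ ω.2 u = (u.1, u.2 - 1))) = a4 at *
  have c1 : ind (surr ω' A' (u.1, u.2)) + ind (surr ω A (u.1, u.2)) =
      ind (surr ω' A' (u.1 - 1, u.2)) + ind (surr ω A (u.1 - 1, u.2)) := by
    rw [h1, k1]
    have : ∀ a b c : ZMod 2, a + c + (b + c) = a + b := by decide
    exact this _ _ _
  have c2 : ind (surr ω' A' (u.1, u.2)) + ind (surr ω A (u.1, u.2)) =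
      ind (surr ω' A' (u.1, u.2 - 1)) + ind (surr ω A (u.1, u.2 - 1)) := by
    rw [h2, k2]
    have : ∀ a b c : ZMod 2, a + c + (b + c) = a + b := by decide
    exact this _ _ _
  have c3 : ind (surr ω' A' (u.1 - 1, u.2)) + ind (surr ω A (u.1 - 1, u.2)) =
      ind (surr ω' A' (u.1 - 1, u.2 - 1)) + ind (surr ω A (u.1 - 1, u.2 - 1)) := by
    rw [h3, k3]
    have : ∀ a b c : ZMod 2, a + c + (b + c) = a + b := by decide
    exact this _ _ _
  have all : ∀ g ∈ facesAt u, ind (surr ω' A' g) + ind (surr ω A g) =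
      ind (surr ω' A' (u.1, u.2)) + ind (surr ω A (u.1, u.2)) := by
    intro g hg
    unfold facesAt at hg
    simp only [mem_insert, mem_singleton] at hg
    rcases hg with rfl | rfl | rfl | rfl
    · rfl
    · exact c1.symm
    · exact c2.symm
    · rw [c1, c3]
  rw [all g hg, ← all f hf]
  exact hfe

/-! ## Everything explored before is not surrounded by the new loop -/

/-- the new loop does not meet `Et` -/
theorem disj_Et (hω : ω ∈ DD V) (hs : (xS, t) ∉ Et xS ω t) {u : Pt} (hu : u ∈ Et xS ω t) :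
    u ∉ comp ω (xS, t) := fun h => hs (mem_Et_of_comp hω hu h)

/-- faces along the half line are not surrounded -/
theorem line_not_surr (hω : ω ∈ DD V) (hne : ω.1 (xS, t) ≠ ω.2 (xS, t))
    (hs : (xS, t) ∉ Et xS ω t) {y : ℤ} (hy : y < t) {f : Pt} (hf : f ∈ facesAt (xS, y)) :
    ¬ surr ω (comp ω (xS, t)) f := by
  intro hsur
  have hL : comp ω (xS, t) ∈ Loops ω := ⟨_, hne, rfl⟩
  have all : ∀ n : ℕ, surr ω (comp ω (xS, t)) (xS, y - n) := by
    intro n
    induction n with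
    | zero =>
      have h0 : y - ((0 : ℕ) : ℤ) = y := by simp
      rw [h0]
      exact (surr_around hω hL (disj_Et hω hs (line_mem_Et hy)) hf (by simp [facesAt])).1 hsur
    | succ n ih =>
      have h1 : ((xS, y - n) : Pt) ∉ comp ω (xS, t) := disj_Et hω hs (line_mem_Et (by omega))
      refine (surr_around hω hL h1 (f := (xS, y - n)) (by simp [facesAt]) ?_).1 ih
      unfold facesAt
      simp only [mem_insert, mem_singleton, Prod.mk.injEq, true_and]
      push_cast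
      right; right; left
      omega
  have hfin := L.intr_finite hω hL
  have hinj : Function.Injective (fun n : ℕ => ((xS, y - n) : Pt)) := by
    intro a b hab
    simp only [Prod.mk.injEq] at hab
    omega
  exact Set.infinite_range_of_injective hinj (hfin.subset (by rintro _ ⟨n, rfl⟩; exact all n))

/-- **faces touching what was explored before are not surrounded by the new loop** -/
theorem Et_not_surr (hω : ω ∈ DD V) (hne : ω.1 (xS, t) ≠ ω.2 (xS, t))
    (hs : (xS, t) ∉ Et xS ω t) {u : Pt} (hu : u ∈ Et xS ω t) {f : Pt} (hf : f ∈ facesAt u) :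
    ¬ surr ω (comp ω (xS, t)) f := by
  have hL : comp ω (xS, t) ∈ Loops ω := ⟨_, hne, rfl⟩
  obtain ⟨y, hy, huc⟩ := hu
  have key : ∀ u, Same ω (xS, y) u → ∀ f ∈ facesAt u, ¬ surr ω (comp ω (xS, t)) f := by
    intro u hu
    induction hu with
    | refl => exact fun f hf => line_not_surr hω hne hs hy hf
    | @tail a b hya hab ih =>
      intro f hf hsur
      have hb : b ∉ comp ω (xS, t) :=
        disj_Et hω hs ⟨y, hy, Relation.ReflTransGen.tail hya hab⟩
      by_cases haV : a ∈ V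
      · have hadj : Adj a b := by
          rcases hab with rfl | rfl
          · exact L.adj1 hω haV
          · exact L.adj2 hω haV
        obtain ⟨g, hg1, hg2⟩ := common_face hadj
        exact ih g hg1 ((surr_around hω hL hb hf hg2).1 hsur)
      · have hba : b = a := by
          rcases hab with rfl | rfl
          · exact L.off1 hω haV
          · exact L.off2 hω haV
        exact ih f (hba ▸ hf) hsur
  exact key u huc f hf

theorem touch_Et_not_surr (hω : ω ∈ DD V) (hne : ω.1 (xS, t) ≠ ω.2 (xS, t))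
    (hs : (xS, t) ∉ Et xS ω t) {f : Pt} (hf : Touch (Et xS ω t) f) :
    ¬ surr ω (comp ω (xS, t)) f := by
  obtain ⟨u, hu, hfu⟩ := touch_iff.1 hf
  exact Et_not_surr hω hne hs hu hfu

/-- faces outside the polygon are not surrounded -/
theorem out_not_surr {T : Temp} (hω : ω ∈ DD T.V) {A : Set Pt} (hA : A ∈ Loops ω) {f : Pt}
    (hf : f ∉ T.faceSet) : ¬ surr ω A f := fun h => hf (A1.L_in hω hA h)

section

variable {τ : Stop V xS}

theorem Stop.bd_zero (hω : ω ∈ DD V) (hN : τ.New ω) {f : Pt} (hf : Touch (Et xS ω (τ.t ω)) f) :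
    τ.bd ω f = 0 := by
  unfold Stop.bd
  exact if_neg (touch_Et_not_surr hω hN.1 hN.2 hf)

theorem Stop.bd_out {T : Temp} {τ : Stop T.V xS} (hω : ω ∈ DD T.V) (hN : τ.New ω) {f : Pt}
    (hf : f ∉ T.faceSet) : τ.bd ω f = 0 := by
  unfold Stop.bd
  rw [if_neg (out_not_surr hω (Stop.L_mem hN) hf)]

/-- the values of `surr L` at the faces of the explored part of the path are determined by the
explored edges -/
theorem go_surr_onE (hω : ω ∈ DD V) (hω' : ω' ∈ DD V) (hne : ω.1 (xS, t) ≠ ω.2 (xS, t))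
    (hs : (xS, t) ∉ Et xS ω t) (h : OnE (Eti xS ω t i) ω ω') : ∀ j ≤ i, ∀ f ∈ facesAt (go ω (xS, t) j),
      (surr ω' (comp ω' (xS, t)) f ↔ surr ω (comp ω (xS, t)) f) := by
  have hs0 := h _ (start_mem_Eti (ω := ω) (xS := xS) (t := t) (i := i))
  have hne' : ω'.1 (xS, t) ≠ ω'.2 (xS, t) := by rw [hs0.1, hs0.2]; exact hne
  have hEt := Et_onE (h.mono Et_sub_Eti)
  have hs' : (xS, t) ∉ Et xS ω' t := by rw [hEt]; exact hs
  have hL : comp ω (xS, t) ∈ Loops ω := ⟨_, hne, rfl⟩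
  have hL' : comp ω' (xS, t) ∈ Loops ω' := ⟨_, hne', rfl⟩
  have hgo := go_onE' h
  intro j
  induction j with
  | zero =>
    intro hj f hf
    rw [go_zero] at hf
    have hu : ((xS, t) : Pt) ∈ comp ω (xS, t) ↔ ((xS, t) : Pt) ∈ comp ω' (xS, t) :=
      ⟨fun _ => self_mem_comp _ _, fun _ => self_mem_comp _ _⟩
    refine surr_det hω hL hω' hL' hu hs0 (f := (xS, t - 1)) (by simp [facesAt]) hf ?_
    have hb : ((xS, t - 1) : Pt) ∈ facesAt (xS, t - 1) := by simp [facesAt]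
    exact ⟨fun hh => absurd hh (line_not_surr hω' hne' hs' (y := t - 1) (by omega) hb),
      fun hh => absurd hh (line_not_surr hω hne hs (y := t - 1) (by omega) hb)⟩
  | succ j ih =>
    intro hj f hf
    have ihj := ih (by omega)
    have hmem := go_mem_comp ω (xS, t) (j + 1)
    have hmem' := go_mem_comp ω' (xS, t) (j + 1)
    rw [hgo (j + 1) (by omega)] at hmem'
    have hVj : go ω (xS, t) j ∈ V := L.loop_subset hω hL (go_mem_comp ω (xS, t) j)
    have hadj : Adj (go ω (xS, t) j) (go ω (xS, t) (j + 1)) := by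
      rcases go_succ_mem ω (xS, t) j with e | e
      · rw [e]; exact L.adj1 hω hVj
      · rw [e]; exact L.adj2 hω hVj
    obtain ⟨g, hg1, hg2⟩ := common_face hadj
    exact surr_det hω hL hω' hL' ⟨fun _ => hmem', fun _ => hmem⟩ (h _ (go_mem_Eti hj)) hg2 hf
      (ihj g hg1)

/-- **the boundary values are determined by the explored edges** -/
theorem Stop.bd_onE {T : Temp} {τ : Stop T.V xS} (hω : ω ∈ DD T.V) (hω' : ω' ∈ DD T.V)
    (hN : τ.New ω) (h : OnE (τ.E ω) ω ω') {f : Pt} (hf : f ∉ OE T (τ.E ω)) :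
    τ.bd ω' f = τ.bd ω f := by
  have hN' : τ.New ω' := (Stop.new_onE hω hω' h).2 hN
  obtain ⟨ht, _⟩ := τ.det ω hω ω' hω' h
  have hEt : Et xS ω' (τ.t ω') = Et xS ω (τ.t ω) := by
    rw [ht]; exact Et_onE (h.mono Et_sub_Eti)
  by_cases hfT : f ∈ T.faceSet
  · have htouch : Touch (τ.E ω) f := by
      by_contra hc
      exact hf ⟨hfT, hc⟩
    obtain ⟨u, hu, hfu⟩ := touch_iff.1 htouch
    rcases hu with hu | ⟨j, hj, rfl⟩
    · have hfu' : Touch (Et xS ω (τ.t ω)) f := touch_iff.2 ⟨u, hu, hfu⟩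
      rw [Stop.bd_zero hω hN hfu', Stop.bd_zero hω' hN' (by rwa [hEt])]
    · have := go_surr_onE hω hω' hN.1 hN.2 h j hj f hfu
      unfold Stop.bd Stop.L
      rw [ht]
      by_cases hh : surr ω (comp ω (xS, τ.t ω)) f
      · rw [if_pos hh, if_pos (this.2 hh)]
      · rw [if_neg hh, if_neg (fun hh' => hh (this.1 hh'))]
  · rw [Stop.bd_out hω hN hfT, Stop.bd_out hω' hN' hfT]

end

end Vale.Agent.P155.NT
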