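import Vale.Agent.P155.NT.Time

/-!
# P155, NT, block A3: stopping times of the exploration, excursions (helper862)

`GTime`: stopping times with values `0, …, M`; `GTime.toStop`; `GTime.first`: the first time
`≥ τ₀` at which the tip has a property, stopped at `τ₁`; the beginnings and ends of the excursions
into a box and the touching times.
-/

namespace Vale.Agent.P155.NT.Tm

open Vale.Agent.P155 T802 T862 Finset NT

variable {V : Finset Pt} {ω ω' : Conf} {xS : ℤ}

/-- A stopping time of the exploration of the line `x = xS`. -/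
structure GTime (V : Finset Pt) (xS : ℤ) where
  N : Conf → ℕ
  le : ∀ ω ∈ DD V, N ω ≤ M V xS ω
  uns : ∀ ω ∈ DD V, ∀ ω' ∈ DD V, T905.UEq ω ω' → N ω' = N ω
  det : ∀ ω ∈ DD V, ∀ ω' ∈ DD V, OnE (En V xS ω (N ω)) ω ω' → N ω' = N ω

/-- the corresponding `Stop` -/
noncomputable def GTime.toStop (τ : GTime V xS) : Stop V xS where
  t ω := (tm V xS ω (τ.N ω)).1
  i ω := (tm V xS ω (τ.N ω)).2
  uns ω hω ω' hω' hu := by
    rw [τ.uns ω hω ω' hω' hu, tm_uns hu]
    exact ⟨rfl, rfl⟩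
  det ω hω ω' hω' h := by
    rw [τ.det ω hω ω' hω' h, tm_onE hω hω' h _ le_rfl]
    exact ⟨rfl, rfl⟩

theorem GTime.toStop_t (τ : GTime V xS) (ω : Conf) : τ.toStop.t ω = (tm V xS ω (τ.N ω)).1 := rfl
theorem GTime.toStop_i (τ : GTime V xS) (ω : Conf) : τ.toStop.i ω = (tm V xS ω (τ.N ω)).2 := rfl
theorem GTime.toStop_E (τ : GTime V xS) (ω : Conf) : τ.toStop.E ω = En V xS ω (τ.N ω) := rfl

/-- whether `τ ≤ n` is determined at the time `n` -/
theorem GTime.le_iff (τ : GTime V xS) (hω : ω ∈ DD V) (hω' : ω' ∈ DD V) {n : ℕ}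
    (h : OnE (En V xS ω n) ω ω') : τ.N ω' ≤ n ↔ τ.N ω ≤ n := by
  constructor
  · intro hn
    have h' : OnE (En V xS ω' (τ.N ω')) ω' ω := by
      refine OnE.mono h.symm ?_
      rw [← En_onE hω hω' h le_rfl]
      exact En_mono hn
    rw [τ.det ω' hω' ω hω h']
    exact hn
  · intro hn
    rw [τ.det ω hω ω' hω' (h.mono (En_mono hn))]
    exact hn

/-- the constant time `n` (stopped at the end) -/
noncomputable def GTime.const (V : Finset Pt) (xS : ℤ) (n : ℕ) : GTime V xS where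
  N ω := min n (M V xS ω)
  le ω _ := min_le_right _ _
  uns ω _ ω' _ hu := by rw [M_uns hu]
  det ω hω ω' hω' h := by
    by_cases hn : M V xS ω ≤ n
    · rw [min_eq_right hn] at h ⊢
      have h1 : M V xS ω' ≤ M V xS ω := (M_le_onE hω hω' h).2 le_rfl
      have h2 : M V xS ω ≤ M V xS ω' := by
        have h3 : OnE (En V xS ω' (M V xS ω')) ω' ω := by
          refine OnE.mono h.symm ?_
          rw [← En_onE hω hω' h le_rfl]
          exact En_mono h1
        exact (M_le_onE hω' hω h3).2 le_rfl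
      rw [le_antisymm h1 h2]
      exact min_eq_right hn
    · rw [min_eq_left (not_le.1 hn).le] at h ⊢
      have h1 : ¬ M V xS ω' ≤ n := fun hh => hn ((M_le_onE hω hω' h).1 hh)
      exact min_eq_left (not_le.1 h1).le

/-- the end of the exploration -/
noncomputable def GTime.fin (V : Finset Pt) (xS : ℤ) : GTime V xS where
  N ω := M V xS ω
  le _ _ := le_rfl
  uns ω _ ω' _ hu := M_uns hu
  det ω hω ω' hω' h := by
    have h1 : M V xS ω' ≤ M V xS ω := (M_le_onE hω hω' h).2 le_rfl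
    have h3 : OnE (En V xS ω' (M V xS ω')) ω' ω := by
      refine OnE.mono h.symm ?_
      rw [← En_onE hω hω' h le_rfl]
      exact En_mono h1
    exact le_antisymm h1 ((M_le_onE hω' hω h3).2 le_rfl)

theorem GTime.const_zero_N (V : Finset Pt) (xS : ℤ) (ω : Conf) : (GTime.const V xS 0).N ω = 0 :=
  Nat.zero_min _

/-- a property of the tip at the times `≥ τ₀` which is unsigned and determined by the explored
part -/
structure Adapted (τ0 : GTime V xS) (P : Conf → ℕ → Prop) : Prop where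
  uns : ∀ ω ∈ DD V, ∀ ω' ∈ DD V, T905.UEq ω ω' → ∀ n, τ0.N ω ≤ n → n < M V xS ω →
    (P ω' n ↔ P ω n)
  det : ∀ ω ∈ DD V, ∀ ω' ∈ DD V, ∀ n, τ0.N ω ≤ n → n < M V xS ω → OnE (En V xS ω n) ω ω' →
    (P ω' n ↔ P ω n)

theorem adapted_of (τ0 : GTime V xS) (Q : Set Pt → Pt → Prop) :
    Adapted τ0 (fun ω n => Q (En V xS ω (τ0.N ω)) (p V xS ω n)) where
  uns ω hω ω' hω' hu n hn hM := by
    rw [τ0.uns ω hω ω' hω' hu, En_uns hω hω' hu, p_uns hω hω' hu hM]
  det ω hω ω' hω' n hn hM h := by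
    rw [τ0.det ω hω ω' hω' (h.mono (En_mono hn)), En_onE hω hω' h hn, p_onE hω hω' h le_rfl]

/-- the first time `≥ τ₀` with the property `P`, stopped at `τ₁` -/
noncomputable def GTime.first (τ0 τ1 : GTime V xS) (h01 : ∀ ω ∈ DD V, τ0.N ω ≤ τ1.N ω)
    (P : Conf → ℕ → Prop) (hP : Adapted τ0 P) : GTime V xS where
  N ω := NT802.fst (τ1.N ω) (P ω) (τ0.N ω)
  le ω hω := (NT802.fst_le (h01 ω hω)).trans (τ1.le ω hω)
  uns ω hω ω' hω' hu := by
    unfold NT802.fst
    rw [τ0.uns ω hω ω' hω' hu, τ1.uns ω hω ω' hω' hu]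
    congr 1
    ext i
    simp only [Set.mem_ofPred_eq]
    constructor
    · rintro ⟨h1, h2⟩
      refine ⟨h1, ?_⟩
      by_cases h3 : τ1.N ω ≤ i
      · exact Or.inr h3
      · exact Or.inl ((hP.uns ω hω ω' hω' hu i h1
          (lt_of_lt_of_le (not_le.1 h3) (τ1.le ω hω))).1 (h2.resolve_right h3))
    · rintro ⟨h1, h2⟩
      refine ⟨h1, ?_⟩
      by_cases h3 : τ1.N ω ≤ i
      · exact Or.inr h3
      · exact Or.inl ((hP.uns ω hω ω' hω' hu i h1
          (lt_of_lt_of_le (not_le.1 h3) (τ1.le ω hω))).2 (h2.resolve_right h3))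
  det ω hω ω' hω' h := by
    obtain ⟨k1, k2⟩ := NT802.fst_mem (τ1.N ω) (P ω) (τ0.N ω)
    have e0 : τ0.N ω' = τ0.N ω := τ0.det ω hω ω' hω' (h.mono (En_mono k1))
    apply le_antisymm
    · refine NT802.fst_min (by rw [e0]; exact k1) ?_
      by_cases h3 : τ1.N ω ≤ NT802.fst (τ1.N ω) (P ω) (τ0.N ω)
      · exact Or.inr ((τ1.le_iff hω hω' h).2 h3)
      · exact Or.inl ((hP.det ω hω ω' hω' _ k1
          (lt_of_lt_of_le (not_le.1 h3) (τ1.le ω hω)) h).2 (k2.resolve_right h3))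
    · by_contra hcon
      obtain ⟨k1', k2'⟩ := NT802.fst_mem (τ1.N ω') (P ω') (τ0.N ω')
      have hlt := not_le.1 hcon
      generalize NT802.fst (τ1.N ω') (P ω') (τ0.N ω') = n' at k1' k2' hlt
      rw [e0] at k1'
      obtain ⟨k3, k4⟩ := NT802.not_of_lt k1' hlt
      have h' := h.mono (En_mono hlt.le)
      rcases k2' with k2' | k2'
      · exact k3 ((hP.det ω hω ω' hω' n' k1' (lt_of_lt_of_le k4 (τ1.le ω hω)) h').1 k2')
      · exact absurd ((τ1.le_iff hω hω' h').1 k2') (not_le.2 k4)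

theorem GTime.first_N (τ0 τ1 : GTime V xS) (h01 : ∀ ω ∈ DD V, τ0.N ω ≤ τ1.N ω)
    (P : Conf → ℕ → Prop) (hP : Adapted τ0 P) (ω : Conf) :
    (GTime.first τ0 τ1 h01 P hP).N ω = NT802.fst (τ1.N ω) (P ω) (τ0.N ω) := rfl

/-! ## Excursions into a box -/

/-- first time `≥ τ` at which the tip is in the set `S` -/
noncomputable def GTime.hit (τ : GTime V xS) (S : Pt → Prop) : GTime V xS :=
  GTime.first τ (GTime.fin V xS) τ.le (fun ω n => S (p V xS ω n)) (adapted_of τ (fun _ v => S v))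

theorem GTime.hit_N (τ : GTime V xS) (S : Pt → Prop) (ω : Conf) :
    (τ.hit S).N ω = NT802.fst (M V xS ω) (fun n => S (p V xS ω n)) (τ.N ω) := rfl

/-- end of the excursion `k` (`0` for `k = 0`) -/
noncomputable def exiT (V : Finset Pt) (xS : ℤ) (q : Pt) (r0 R : ℕ) : ℕ → GTime V xS
  | 0 => GTime.const V xS 0
  | k + 1 => ((exiT V xS q r0 R k).hit (fun v => v ∈ box q r0)).hit (fun v => v ∉ box q R)

/-- beginning of the excursion number `k` -/
noncomputable def entT (V : Finset Pt) (xS : ℤ) (q : Pt) (r0 R k : ℕ) : GTime V xS :=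
  (exiT V xS q r0 R k).hit (fun v => v ∈ box q r0)

theorem exiT_N (V : Finset Pt) (xS : ℤ) (q : Pt) (r0 R k : ℕ) (ω : Conf) :
    (exiT V xS q r0 R k).N ω = NT802.exi (M V xS ω) (p V xS ω) q r0 R k := by
  induction k with
  | zero => exact Nat.zero_min _
  | succ k ih =>
    show NT802.fst (M V xS ω) (fun n => p V xS ω n ∉ box q R)
      (NT802.fst (M V xS ω) (fun n => p V xS ω n ∈ box q r0) ((exiT V xS q r0 R k).N ω)) = _
    rw [ih]
    rfl

theorem entT_N (V : Finset Pt) (xS : ℤ) (q : Pt) (r0 R k : ℕ) (ω : Conf) :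
    (entT V xS q r0 R k).N ω = NT802.ent (M V xS ω) (p V xS ω) q r0 R k := by
  show NT802.fst (M V xS ω) (fun n => p V xS ω n ∈ box q r0) ((exiT V xS q r0 R k).N ω) = _
  rw [exiT_N]
  rfl

theorem entT_le_exiT (V : Finset Pt) (xS : ℤ) (q : Pt) (r0 R k : ℕ) (ω : Conf) :
    (entT V xS q r0 R k).N ω ≤ (exiT V xS q r0 R (k + 1)).N ω := by
  rw [entT_N, exiT_N]
  exact NT802.ent_le_exi k

/-- the first time of the excursion `k` at which the tip is in `box q r'`, at distance `≤ h` of a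
face which was not free at the beginning of the excursion (the end of the excursion if there is no
such time) -/
noncomputable def uT (T : Temp) (xS : ℤ) (q : Pt) (r0 R r' h k : ℕ) : GTime T.V xS :=
  GTime.first (entT T.V xS q r0 R k) (exiT T.V xS q r0 R (k + 1))
    (fun ω _ => entT_le_exiT T.V xS q r0 R k ω)
    (fun ω n => p T.V xS ω n ∈ box q r' ∧
      ∃ a, a ∉ OE T (En T.V xS ω ((entT T.V xS q r0 R k).N ω)) ∧ dn (p T.V xS ω n) a ≤ h)
    (adapted_of (entT T.V xS q r0 R k) (fun E v => v ∈ box q r' ∧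
      ∃ a, a ∉ OE T E ∧ dn v a ≤ h))

theorem uT_N (T : Temp) (xS : ℤ) (q : Pt) (r0 R r' h k : ℕ) (ω : Conf) :
    (uT T xS q r0 R r' h k).N ω = NT802.fst (NT802.exi (M T.V xS ω) (p T.V xS ω) q r0 R (k + 1))
      (fun n => p T.V xS ω n ∈ box q r' ∧
        ∃ a, a ∉ OE T (En T.V xS ω (NT802.ent (M T.V xS ω) (p T.V xS ω) q r0 R k)) ∧
          dn (p T.V xS ω n) a ≤ h)
      (NT802.ent (M T.V xS ω) (p T.V xS ω) q r0 R k) := by
  show NT802.fst ((exiT T.V xS q r0 R (k + 1)).N ω) (fun n => p T.V xS ω n ∈ box q r' ∧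
      ∃ a, a ∉ OE T (En T.V xS ω ((entT T.V xS q r0 R k).N ω)) ∧ dn (p T.V xS ω n) a ≤ h)
    ((entT T.V xS q r0 R k).N ω) = _
  rw [exiT_N, entT_N]

end Vale.Agent.P155.NT.Tm
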