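import Vale.Agent.P155.NT.Faces
import Vale.Agent.P155.G45.Basic

/-!
# P155, NT block A1: the harmonic measure `H` of the inner side (helper902)
-/

namespace Vale.Agent.P155.NT

open Vale.Agent.P155 T802 T862 Finset G45

variable {ω ω' : Conf} {xS : ℤ} {T : Temp} {τ : Stop T.V xS} {H H' : Pt → ℝ}

theorem Stop.bd_nonneg (τ : Stop T.V xS) (ω : Conf) (f : Pt) : 0 ≤ τ.bd ω f := by
  unfold Stop.bd
  split_ifs <;> norm_num

theorem Stop.bd_le_one (τ : Stop T.V xS) (ω : Conf) (f : Pt) : τ.bd ω f ≤ 1 := by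
  unfold Stop.bd
  split_ifs <;> norm_num

theorem Stop.bd_cases (τ : Stop T.V xS) (ω : Conf) (f : Pt) : τ.bd ω f = 0 ∨ τ.bd ω f = 1 := by
  unfold Stop.bd
  split_ifs
  · exact Or.inr rfl
  · exact Or.inl rfl

/-- existence of the harmonic function with given values off a finite set -/
theorem exists_harm {O : Set Pt} (hO : O.Finite) (g : Pt → ℝ) :
    ∃ H : Pt → ℝ, (∀ f ∈ O, lap H f = 0) ∧ ∀ f, f ∉ O → H f = g f := by
  obtain ⟨u, hu⟩ := exists_green hO (fun x => lap g x)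
  refine ⟨fun x => u x + g x, ?_, ?_⟩
  · intro f hf
    rw [lap_add]
    have := hu.eq f hf
    linarith
  · intro f hf
    simp only
    rw [hu.off f hf, zero_add]

theorem Stop.exists_H (τ : Stop T.V xS) (ω : Conf) : ∃ H, τ.IsH T ω H :=
  exists_harm (OE_finite T _) _

theorem Stop.IsH.nonneg (h : τ.IsH T ω H) (x : Pt) : 0 ≤ H x := by
  have := comparison (OE_finite T (τ.E ω)) (u := fun _ => 0) (v := H)
    (fun y hy => by rw [lap_const, h.1 y hy]) (fun y hy => by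
      rw [h.2 y hy]; exact τ.bd_nonneg ω y) x
  exact this

theorem Stop.IsH.le_one (h : τ.IsH T ω H) (x : Pt) : H x ≤ 1 := by
  have := comparison (OE_finite T (τ.E ω)) (u := H) (v := fun _ => 1)
    (fun y hy => by rw [lap_const, h.1 y hy]) (fun y hy => by
      rw [h.2 y hy]; exact τ.bd_le_one ω y) x
  exact this

theorem Stop.IsH.unique (h : τ.IsH T ω H) (h' : τ.IsH T ω H') : H = H' := by
  funext x
  apply le_antisymm
  · exact comparison (OE_finite T (τ.E ω)) (fun y hy => by rw [h.1 y hy, h'.1 y hy])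
      (fun y hy => by rw [h.2 y hy, h'.2 y hy]) x
  · exact comparison (OE_finite T (τ.E ω)) (fun y hy => by rw [h.1 y hy, h'.1 y hy])
      (fun y hy => by rw [h.2 y hy, h'.2 y hy]) x

theorem Stop.IsH.onE (hω : ω ∈ DD T.V) (hω' : ω' ∈ DD T.V) (hN : τ.New ω)
    (he : OnE (τ.E ω) ω ω') (h : τ.IsH T ω H) : τ.IsH T ω' H := by
  refine ⟨?_, ?_⟩
  · rw [Stop.E_onE hω hω' he]; exact h.1
  · rw [Stop.E_onE hω hω' he]
    intro f hf
    rw [Stop.bd_onE hω hω' hN he hf]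
    exact h.2 f hf

theorem Stop.IsH.uns (hω : ω ∈ DD T.V) (hω' : ω' ∈ DD T.V) (he : T905.UEq ω ω')
    (h : τ.IsH T ω H) : τ.IsH T ω' H := by
  unfold Stop.IsH
  rw [τ.E_uns hω hω' he, τ.bd_uns hω hω' he]
  exact h

/-- the harmonic measure of the inner side -/
noncomputable def Stop.Hf (τ : Stop T.V xS) (ω : Conf) : Pt → ℝ := (τ.exists_H ω).choose

theorem Stop.Hf_spec (τ : Stop T.V xS) (ω : Conf) : τ.IsH T ω (τ.Hf ω) :=
  (τ.exists_H ω).choose_spec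

theorem Stop.Hf_onE (hω : ω ∈ DD T.V) (hω' : ω' ∈ DD T.V) (hN : τ.New ω)
    (he : OnE (τ.E ω) ω ω') : τ.Hf ω' = τ.Hf ω :=
  (τ.Hf_spec ω').unique ((τ.Hf_spec ω).onE hω hω' hN he)

theorem Stop.Hf_uns (τ : Stop T.V xS) (hω : ω ∈ DD T.V) (hω' : ω' ∈ DD T.V)
    (he : T905.UEq ω ω') : τ.Hf ω' = τ.Hf ω :=
  (τ.Hf_spec ω').unique ((τ.Hf_spec ω).uns hω hω' he)

theorem Stop.Hf_uinv (τ : Stop T.V xS) : T905.UInv T.V τ.Hf :=
  fun _ hω _ hω' h => τ.Hf_uns hω hω' h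

theorem Stop.Hf_atom (hω : ω ∈ DD T.V) (hN : τ.New ω) (h : ω' ∈ atom T.V τ.X ω) :
    τ.Hf ω' = τ.Hf ω :=
  Stop.Hf_onE hω (Stop.atom_dd h) hN (Stop.atom_onE h)

end Vale.Agent.P155.NT
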