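import Vale.Agent.P155.NT.Defs
import Vale.Agent.P155.TC657.Orbit
import Vale.Agent.P155.T802.Own

/-!
# P155, NT, block A2: the path `go` of the loop of `s` (helper862)
-/

namespace Vale.Agent.P155.NT.Go

open Vale.Agent.P155 Vale.Agent.P155.SW T802 T862 Finset Function

variable {V : Finset Pt} {ω ω' : Conf} {s : Pt}

/-- the loop of `s` is followed in the direction of `suc` -/
def Dir (ω : Conf) (s : Pt) : Prop :=
  SW.suc ω s = (s.1 + 1, s.2) ∨ (SW.pre ω s ≠ (s.1 + 1, s.2) ∧ SW.suc ω s = (s.1, s.2 + 1))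

open Classical in
/-- next point of the path -/
noncomputable def nx (ω : Conf) (s : Pt) : Pt → Pt := if Dir ω s then SW.suc ω else SW.pre ω

open Classical in
/-- previous point of the path -/
noncomputable def px (ω : Conf) (s : Pt) : Pt → Pt := if Dir ω s then SW.pre ω else SW.suc ω

theorem nx_pos (h : Dir ω s) : nx ω s = SW.suc ω := if_pos h
theorem nx_neg (h : ¬ Dir ω s) : nx ω s = SW.pre ω := if_neg h
theorem px_pos (h : Dir ω s) : px ω s = SW.pre ω := if_pos h
theorem px_neg (h : ¬ Dir ω s) : px ω s = SW.suc ω := if_neg h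

theorem go_eq (ω : Conf) (s : Pt) (i : ℕ) : go ω s i = (nx ω s)^[i] s := by
  by_cases h : Dir ω s
  · rw [nx_pos h]
    exact if_pos h
  · rw [nx_neg h]
    exact if_neg h

theorem go_zero (ω : Conf) (s : Pt) : go ω s 0 = s := by
  rw [go_eq]; rfl

theorem go_succ (ω : Conf) (s : Pt) (i : ℕ) : go ω s (i + 1) = nx ω s (go ω s i) := by
  rw [go_eq, go_eq, iterate_succ_apply']

/-- the two partners of a vertex in terms of `nx` and `px` -/
theorem nx_px (ω : Conf) (s u : Pt) :
    (ω.1 u = nx ω s u ∧ ω.2 u = px ω s u) ∨ (ω.1 u = px ω s u ∧ ω.2 u = nx ω s u) := by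
  by_cases h : Dir ω s
  · rw [nx_pos h, px_pos h]
    by_cases hw : White u
    · rw [SW.suc_white hw, SW.pre_white hw]; exact Or.inl ⟨rfl, rfl⟩
    · rw [SW.suc_black (black_iff_not_white.2 hw), SW.pre_black (black_iff_not_white.2 hw)]
      exact Or.inr ⟨rfl, rfl⟩
  · rw [nx_neg h, px_neg h]
    by_cases hw : White u
    · rw [SW.suc_white hw, SW.pre_white hw]; exact Or.inr ⟨rfl, rfl⟩
    · rw [SW.suc_black (black_iff_not_white.2 hw), SW.pre_black (black_iff_not_white.2 hw)]
      exact Or.inl ⟨rfl, rfl⟩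

theorem px_nx (hω : ω ∈ DD V) {u : Pt} (h : ω.1 u ≠ ω.2 u) : px ω s (nx ω s u) = u := by
  by_cases hd : Dir ω s
  · rw [nx_pos hd, px_pos hd]; exact TC.pre_suc' hω h
  · rw [nx_neg hd, px_neg hd]; exact TC.suc_pre' hω h

theorem nx_px' (hω : ω ∈ DD V) {u : Pt} (h : ω.1 u ≠ ω.2 u) : nx ω s (px ω s u) = u := by
  by_cases hd : Dir ω s
  · rw [nx_pos hd, px_pos hd]; exact TC.suc_pre' hω h
  · rw [nx_neg hd, px_neg hd]; exact TC.pre_suc' hω h

theorem ne_nx (hω : ω ∈ DD V) {u : Pt} (h : ω.1 u ≠ ω.2 u) : ω.1 (nx ω s u) ≠ ω.2 (nx ω s u) := by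
  by_cases hd : Dir ω s
  · rw [nx_pos hd]; exact TC.ne_suc hω h
  · rw [nx_neg hd]; exact TC.ne_pre hω h

theorem nx_ne_px {u : Pt} (h : ω.1 u ≠ ω.2 u) : nx ω s u ≠ px ω s u := by
  intro he
  rcases nx_px ω s u with ⟨h1, h2⟩ | ⟨h1, h2⟩
  · exact h (by rw [h1, h2, he])
  · exact h (by rw [h1, h2, he])

/-- all points of the path lie on loops -/
theorem go_ne (hω : ω ∈ DD V) (h : ω.1 s ≠ ω.2 s) (i : ℕ) :
    ω.1 (go ω s i) ≠ ω.2 (go ω s i) := by
  induction i with
  | zero => rw [go_zero]; exact h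
  | succ i ih => rw [go_succ]; exact ne_nx hω ih

theorem go_mem_V (hω : ω ∈ DD V) (h : ω.1 s ≠ ω.2 s) (i : ℕ) : go ω s i ∈ V :=
  TC.mem_of_ne hω (go_ne hω h i)

/-- the point before `go (i+1)` is `go i` -/
theorem px_go_succ (hω : ω ∈ DD V) (h : ω.1 s ≠ ω.2 s) (i : ℕ) :
    px ω s (go ω s (i + 1)) = go ω s i := by
  rw [go_succ]; exact px_nx hω (go_ne hω h i)

/-- the two partners of `go (i+1)` are `go i` and `go (i+2)` -/
theorem go_partners (hω : ω ∈ DD V) (h : ω.1 s ≠ ω.2 s) (i : ℕ) :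
    (ω.1 (go ω s (i + 1)) = go ω s (i + 2) ∧ ω.2 (go ω s (i + 1)) = go ω s i) ∨
    (ω.1 (go ω s (i + 1)) = go ω s i ∧ ω.2 (go ω s (i + 1)) = go ω s (i + 2)) := by
  have h1 := nx_px ω s (go ω s (i + 1))
  rw [px_go_succ hω h, ← go_succ] at h1
  exact h1

/-- `go (i+1)` is a partner of `go i` -/
theorem go_step (ω : Conf) (s : Pt) (i : ℕ) :
    go ω s (i + 1) = ω.1 (go ω s i) ∨ go ω s (i + 1) = ω.2 (go ω s i) := by
  rw [go_succ]
  rcases nx_px ω s (go ω s i) with ⟨h1, _⟩ | ⟨_, h1⟩
  · exact Or.inl h1.symm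
  · exact Or.inr h1.symm

theorem go_adj (hω : ω ∈ DD V) (h : ω.1 s ≠ ω.2 s) (i : ℕ) :
    Adj (go ω s i) (go ω s (i + 1)) := by
  rcases go_step ω s i with h1 | h1
  · rw [h1]; exact (TC.pm1 hω).adj _ (go_mem_V hω h i)
  · rw [h1]; exact (TC.pm2 hω).adj _ (go_mem_V hω h i)

theorem go_ne_two (hω : ω ∈ DD V) (h : ω.1 s ≠ ω.2 s) (i : ℕ) :
    go ω s i ≠ go ω s (i + 2) := by
  have h1 := nx_ne_px (s := s) (go_ne hω h (i + 1))
  rw [px_go_succ hω h, ← go_succ] at h1
  exact h1.symm

theorem same_go (ω : Conf) (s : Pt) (i : ℕ) : Same ω s (go ω s i) := by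
  induction i with
  | zero => rw [go_zero]; exact Relation.ReflTransGen.refl
  | succ i ih =>
    refine Relation.ReflTransGen.tail ih ?_
    exact go_step ω s i

theorem go_mem (ω : Conf) (s : Pt) (i : ℕ) : go ω s i ∈ comp ω s := same_go ω s i

/-- the length of the loop is the minimal period of the path -/
theorem period (hω : ω ∈ DD V) (h : ω.1 s ≠ ω.2 s) :
    minimalPeriod (nx ω s) s = (comp ω s).ncard := by
  rw [TC.ncard_comp hω h]
  unfold TC.len
  by_cases hd : Dir ω s
  · rw [nx_pos hd]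
  · rw [nx_neg hd]
    rw [minimalPeriod_eq_minimalPeriod_iff]
    intro n
    have k1 : ∀ n, (SW.pre ω)^[n] ((SW.suc ω)^[n] s) = s := by
      intro n
      induction n with
      | zero => rfl
      | succ n ih =>
        rw [iterate_succ_apply' (SW.suc ω), iterate_succ_apply (SW.pre ω),
          TC.pre_suc' hω (TC.ne_iter hω h n), ih]
    have hp : ∀ n, ω.1 ((SW.pre ω)^[n] s) ≠ ω.2 ((SW.pre ω)^[n] s) := by
      intro n
      induction n with
      | zero => exact h
      | succ n ih => rw [iterate_succ_apply']; exact TC.ne_pre hω ih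
    have k2 : ∀ n, (SW.suc ω)^[n] ((SW.pre ω)^[n] s) = s := by
      intro n
      induction n with
      | zero => rfl
      | succ n ih =>
        rw [iterate_succ_apply' (SW.pre ω), iterate_succ_apply (SW.suc ω),
          TC.suc_pre' hω (hp n), ih]
    constructor
    · intro hn
      have := k2 n
      rw [show (SW.pre ω)^[n] s = s from hn] at this
      exact this
    · intro hn
      have := k1 n
      rw [show (SW.suc ω)^[n] s = s from hn] at this
      exact this

theorem len_pos (hω : ω ∈ DD V) (h : ω.1 s ≠ ω.2 s) : 0 < (comp ω s).ncard := by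
  rw [TC.ncard_comp hω h]; exact TC.len_pos hω h

/-- the path closes after `ncard` steps -/
theorem go_len (hω : ω ∈ DD V) (h : ω.1 s ≠ ω.2 s) : go ω s (comp ω s).ncard = s := by
  rw [go_eq, ← period hω h]; exact iterate_minimalPeriod

theorem go_mod (hω : ω ∈ DD V) (h : ω.1 s ≠ ω.2 s) (i : ℕ) :
    go ω s (i % (comp ω s).ncard) = go ω s i := by
  rw [go_eq, go_eq, ← period hω h]; exact iterate_mod_minimalPeriod_eq

theorem go_add_len (hω : ω ∈ DD V) (h : ω.1 s ≠ ω.2 s) (i : ℕ) :
    go ω s (i + (comp ω s).ncard) = go ω s i := by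
  rw [← go_mod hω h, Nat.add_mod_right, go_mod hω h]

/-- the points of the path are distinct before it closes -/
theorem go_inj (hω : ω ∈ DD V) (h : ω.1 s ≠ ω.2 s) {i j : ℕ} (hi : i < (comp ω s).ncard)
    (hj : j < (comp ω s).ncard) (he : go ω s i = go ω s j) : i = j := by
  rw [go_eq, go_eq] at he
  rw [← period hω h] at hi hj
  exact (iterate_eq_iterate_iff_of_lt_minimalPeriod hi hj).1 he

/-- the path runs through the whole loop -/
theorem comp_eq_go (hω : ω ∈ DD V) (h : ω.1 s ≠ ω.2 s) :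
    comp ω s = {v | ∃ i < (comp ω s).ncard, v = go ω s i} := by
  have hpos := len_pos hω h
  apply Set.Subset.antisymm
  · intro u hu
    have hu' : Same ω s u := hu
    have hred : ∀ k : ℕ, ∃ i < (comp ω s).ncard, go ω s k = go ω s i := fun k =>
      ⟨k % (comp ω s).ncard, Nat.mod_lt _ hpos, (go_mod hω h k).symm⟩
    unfold Same at hu'
    clear hu
    induction hu' with
    | refl => exact ⟨0, hpos, (go_zero ω s).symm⟩
    | @tail b c hab hbc ih =>
      obtain ⟨i, hi, rfl⟩ := ih
      -- pass to an index `≥ 1`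
      have e1 : go ω s i = go ω s (i + (comp ω s).ncard - 1 + 1) := by
        rw [show i + (comp ω s).ncard - 1 + 1 = i + (comp ω s).ncard by omega, go_add_len hω h]
      rw [e1] at hbc
      have h2 := go_partners hω h (i + (comp ω s).ncard - 1)
      have : c = go ω s (i + (comp ω s).ncard - 1) ∨ c = go ω s (i + (comp ω s).ncard - 1 + 2) := by
        rcases h2 with ⟨a1, a2⟩ | ⟨a1, a2⟩ <;> rcases hbc with h3 | h3
        · exact Or.inr (h3.trans a1)
        · exact Or.inl (h3.trans a2)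
        · exact Or.inl (h3.trans a1)
        · exact Or.inr (h3.trans a2)
      rcases this with rfl | rfl
      · exact hred _
      · exact hred _
  · rintro _ ⟨i, _, rfl⟩
    exact go_mem ω s i

theorem exists_go (hω : ω ∈ DD V) (h : ω.1 s ≠ ω.2 s) {v : Pt} (hv : v ∈ comp ω s) :
    ∃ i < (comp ω s).ncard, v = go ω s i := by
  rw [comp_eq_go hω h] at hv; exact hv

/-! ## The first step -/

theorem go_one (h : ω.1 s ≠ ω.2 s) (hS : ω.1 s ≠ (s.1, s.2 - 1)) (hS' : ω.2 s ≠ (s.1, s.2 - 1))
    (hω : ω ∈ DD V) :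
    (go ω s 1 = (s.1 + 1, s.2)) ∨
    (go ω s 1 = (s.1, s.2 + 1) ∧ px ω s s = (s.1 - 1, s.2)) := by
  have hsV := TC.mem_of_ne hω h
  have a1 := mem_nbrs.2 ((TC.pm1 hω).adj s hsV)
  have a2 := mem_nbrs.2 ((TC.pm2 hω).adj s hsV)
  simp only [nbrs, mem_insert, mem_singleton] at a1 a2
  have hn := nx_px ω s s
  have hg : go ω s 1 = nx ω s s := by rw [go_succ, go_zero]
  rw [hg]
  by_cases hd : Dir ω s
  · rw [nx_pos hd] at hn ⊢
    rw [px_pos hd] at hn ⊢
    rcases hd with hd | ⟨hd1, hd2⟩
    · exact Or.inl hd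
    · right
      refine ⟨hd2, ?_⟩
      rcases hn with ⟨n1, n2⟩ | ⟨n1, n2⟩
      · rw [hd2] at n1
        rcases a2 with a2 | a2 | a2 | a2
        · exact absurd (n2.symm.trans a2) hd1
        · exact n2.symm.trans a2
        · exact absurd (n1.trans a2.symm) h
        · exact absurd a2 hS'
      · rw [hd2] at n2
        rcases a1 with a1 | a1 | a1 | a1
        · exact absurd (n1.symm.trans a1) hd1
        · exact n1.symm.trans a1
        · exact absurd (a1.trans n2.symm) h
        · exact absurd a1 hS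
  · rw [nx_neg hd] at hn ⊢
    rw [px_neg hd] at hn ⊢
    unfold Dir at hd
    push Not at hd
    by_cases hp : SW.pre ω s = (s.1 + 1, s.2)
    · exact Or.inl hp
    · right
      have hs1 := hd.1
      have hs2 := hd.2 hp
      rcases hn with ⟨n1, n2⟩ | ⟨n1, n2⟩
      · rcases a1 with a1 | a1 | a1 | a1
        · exact absurd (n1.symm.trans a1) hp
        · rcases a2 with a2 | a2 | a2 | a2
          · exact absurd (n2.symm.trans a2) hs1
          · exact absurd (a1.trans a2.symm) h
          · exact absurd (n2.symm.trans a2) hs2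
          · exact absurd a2 hS'
        · rcases a2 with a2 | a2 | a2 | a2
          · exact absurd (n2.symm.trans a2) hs1
          · exact ⟨n1.symm.trans a1, n2.symm.trans a2⟩
          · exact absurd (a1.trans a2.symm) h
          · exact absurd a2 hS'
        · exact absurd a1 hS
      · rcases a2 with a2 | a2 | a2 | a2
        · exact absurd (n2.symm.trans a2) hp
        · rcases a1 with a1 | a1 | a1 | a1
          · exact absurd (n1.symm.trans a1) hs1
          · exact absurd (a1.trans a2.symm) h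
          · exact absurd (n1.symm.trans a1) hs2
          · exact absurd a1 hS
        · rcases a1 with a1 | a1 | a1 | a1
          · exact absurd (n1.symm.trans a1) hs1
          · exact ⟨n2.symm.trans a2, n1.symm.trans a1⟩
          · exact absurd (a1.trans a2.symm) h
          · exact absurd a1 hS
        · exact absurd a2 hS'

end Vale.Agent.P155.NT.Go
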