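import Vale.Agent.P155.NT.Sides

/-!
# P155, NT, block A2: the path is determined by the unordered pairs of partners (helper862)
-/

namespace Vale.Agent.P155.NT.Go

open Vale.Agent.P155 Vale.Agent.P155.SW T802 T862 Finset Function

variable {V : Finset Pt} {ω ω' : Conf} {s : Pt} {xS t : ℤ}

/-- the same (unordered) pair of partners -/
def PEq (ω ω' : Conf) (v : Pt) : Prop :=
  (ω'.1 v = ω.1 v ∧ ω'.2 v = ω.2 v) ∨ (ω'.1 v = ω.2 v ∧ ω'.2 v = ω.1 v)

theorem PEq.isP {v : Pt} (h : PEq ω ω' v) (d : Pt) : IsP ω' v d ↔ IsP ω v d := by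
  unfold IsP
  rcases h with ⟨h1, h2⟩ | ⟨h1, h2⟩
  · rw [h1, h2]
  · rw [h1, h2, or_comm]

theorem PEq.ne_iff {v : Pt} (h : PEq ω ω' v) : ω'.1 v ≠ ω'.2 v ↔ ω.1 v ≠ ω.2 v := by
  rcases h with ⟨h1, h2⟩ | ⟨h1, h2⟩
  · rw [h1, h2]
  · rw [h1, h2]; exact ne_comm

theorem PEq.symm {v : Pt} (h : PEq ω ω' v) : PEq ω' ω v := by
  rcases h with ⟨h1, h2⟩ | ⟨h1, h2⟩
  · exact Or.inl ⟨h1.symm, h2.symm⟩
  · exact Or.inr ⟨h2.symm, h1.symm⟩

theorem PEq.of_uEq (h : T905.UEq ω ω') (v : Pt) : PEq ω ω' v := h v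

theorem PEq.of_onE {E : Set Pt} (h : OnE E ω ω') {v : Pt} (hv : v ∈ E) : PEq ω ω' v :=
  Or.inl (h v hv)

theorem isP_go_zero (h : Pt) (ω : Conf) (s : Pt) : IsP ω s h ↔ h = nx ω s s ∨ h = px ω s s := by
  unfold IsP
  rcases nx_px ω s s with ⟨h1, h2⟩ | ⟨h1, h2⟩
  · rw [h1, h2, eq_comm, eq_comm (a := px ω s s)]
  · rw [h1, h2, or_comm, eq_comm, eq_comm (a := px ω s s)]

theorem go_one_congr (hω : ω ∈ DD V) (hω' : ω' ∈ DD V) (h : ω.1 s ≠ ω.2 s)
    (hS : ¬ IsP ω s (s.1, s.2 - 1)) (hp : PEq ω ω' s) : go ω' s 1 = go ω s 1 := by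
  have h' : ω'.1 s ≠ ω'.2 s := hp.ne_iff.2 h
  have hS' : ¬ IsP ω' s (s.1, s.2 - 1) := fun hh => hS ((hp.isP _).1 hh)
  have g1 : ∀ ω : Conf, go ω s 1 = nx ω s s := fun ω => by rw [go_succ, go_zero]
  rcases go_one h (fun e => hS (Or.inl e)) (fun e => hS (Or.inr e)) hω with e | ⟨e1, e2⟩
  · rcases go_one h' (fun e => hS' (Or.inl e)) (fun e => hS' (Or.inr e)) hω' with e' | ⟨e1', e2'⟩
    · rw [e, e']
    · exfalso
      rw [g1] at e e1'
      have k1 : IsP ω s (s.1 + 1, s.2) := (isP_go_zero _ ω s).2 (Or.inl e.symm)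
      have k2 := (isP_go_zero _ ω' s).1 ((hp.isP _).2 k1)
      rw [e1', e2'] at k2
      simp only [Prod.mk.injEq] at k2
      omega
  · rcases go_one h' (fun e => hS' (Or.inl e)) (fun e => hS' (Or.inr e)) hω' with e' | ⟨e1', e2'⟩
    · exfalso
      rw [g1] at e' e1
      have k1 : IsP ω' s (s.1 + 1, s.2) := (isP_go_zero _ ω' s).2 (Or.inl e'.symm)
      have k2 := (isP_go_zero _ ω s).1 ((hp.isP _).1 k1)
      rw [e1, e2] at k2
      simp only [Prod.mk.injEq] at k2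
      omega
    · rw [e1, e1']

/-- **The path up to the index `i + 1` is determined by the pairs of partners of its first `i`
points.** -/
theorem go_congr (hω : ω ∈ DD V) (hω' : ω' ∈ DD V) (h : ω.1 s ≠ ω.2 s)
    (hS : ¬ IsP ω s (s.1, s.2 - 1)) {i : ℕ} (hp : ∀ j ≤ i, PEq ω ω' (go ω s j)) :
    ∀ j ≤ i + 1, go ω' s j = go ω s j := by
  have h0 : PEq ω ω' s := by
    have := hp 0 (Nat.zero_le _)
    rwa [go_zero] at this
  have h' : ω'.1 s ≠ ω'.2 s := h0.ne_iff.2 h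
  intro j
  induction j using Nat.strong_induction_on with
  | _ j ih =>
    intro hj
    match j, ih, hj with
    | 0, _, _ => rw [go_zero, go_zero]
    | 1, _, _ => exact go_one_congr hω hω' h hS h0
    | j + 2, ih, hj =>
      have e1 := ih (j + 1) (by omega) (by omega)
      have e0 := ih j (by omega) (by omega)
      have hb := hp (j + 1) (by omega)
      have k1 : IsP ω (go ω s (j + 1)) (go ω s (j + 2)) :=
        (isP_go hω h j _).2 (Or.inr rfl)
      have k2 : IsP ω' (go ω' s (j + 1)) (go ω s (j + 2)) := by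
        rw [e1]; exact (hb.isP _).2 k1
      rcases (isP_go hω' h' j _).1 k2 with e | e
      · exfalso
        rw [e0] at e
        exact go_ne_two hω h j e.symm
      · exact e.symm

/-- a double edge -/
theorem go_double (hω : ω ∈ DD V) (h : ω.1 s = ω.2 s) (j : ℕ) :
    go ω s j = if Even j then s else ω.1 s := by
  have k1 : nx ω s s = ω.1 s := by
    rcases nx_px ω s s with ⟨h1, _⟩ | ⟨_, h1⟩
    · exact h1.symm
    · rw [h]; exact h1.symm
  have hd : ω.1 (ω.1 s) = ω.2 (ω.1 s) := by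
    rw [L.inv1 hω, h, L.inv2 hω]
  have k2 : nx ω s (ω.1 s) = s := by
    rcases nx_px ω s (ω.1 s) with ⟨h1, _⟩ | ⟨_, h1⟩
    · rw [← h1, L.inv1 hω]
    · rw [← h1, ← hd, L.inv1 hω]
  induction j with
  | zero => rw [go_zero]; simp
  | succ j ih =>
    rw [go_succ, ih]
    by_cases hj : Even j
    · rw [if_pos hj, if_neg (by rw [Nat.even_add_one]; exact not_not.2 hj), k1]
    · rw [if_neg hj, if_pos (by rw [Nat.even_add_one]; exact hj), k2]

theorem go_double_congr (hω : ω ∈ DD V) (hω' : ω' ∈ DD V) (h : ω.1 s = ω.2 s)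
    (hp : PEq ω ω' s) (j : ℕ) : go ω' s j = go ω s j := by
  have h' : ω'.1 s = ω'.2 s := by
    by_contra hc
    exact hp.ne_iff.1 hc h
  rw [go_double hω h, go_double hω' h']
  rcases hp with ⟨h1, _⟩ | ⟨h1, _⟩
  · rw [h1]
  · rw [h1, h]

/-- general version (no assumption on `s`) -/
theorem go_congr' (hω : ω ∈ DD V) (hω' : ω' ∈ DD V) (hS : ¬ IsP ω s (s.1, s.2 - 1)) {i : ℕ}
    (hp : ∀ j ≤ i, PEq ω ω' (go ω s j)) : ∀ j ≤ i + 1, go ω' s j = go ω s j := by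
  by_cases h : ω.1 s = ω.2 s
  · intro j _
    refine go_double_congr hω hω' h ?_ j
    have := hp 0 (Nat.zero_le _)
    rwa [go_zero] at this
  · exact go_congr hω hω' h hS hp

/-- the path is unsigned -/
theorem go_uns (hω : ω ∈ DD V) (hω' : ω' ∈ DD V) (hu : T905.UEq ω ω')
    (hs : (xS, t) ∉ Et xS ω t) (j : ℕ) : go ω' (xS, t) j = go ω (xS, t) j :=
  go_congr' hω hω' (south hω hs) (i := j) (fun _ _ => PEq.of_uEq hu _) j (Nat.le_succ j)

/-- the path is determined by the explored part -/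
theorem go_onE (hω : ω ∈ DD V) (hω' : ω' ∈ DD V) {i : ℕ} (he : OnE (Eti xS ω t i) ω ω')
    (hs : (xS, t) ∉ Et xS ω t) : ∀ j ≤ i + 1, go ω' (xS, t) j = go ω (xS, t) j :=
  go_congr' hω hω' (south hω hs) (i := i) (fun k hk => PEq.of_onE he (Or.inr ⟨k, hk, rfl⟩))

end Vale.Agent.P155.NT.Go
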