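import Vale.Agent.P155.NT.Path
import Vale.Agent.P155.A.InLoop

/-!
# P155, NT, block A2: left faces of the path are surrounded, right faces are not (helper862)
-/

namespace Vale.Agent.P155.NT.Go

open Vale.Agent.P155 Vale.Agent.P155.SW T802 T862 Finset Function

variable {V : Finset Pt} {ω ω' : Conf} {s : Pt}

/-- the face to the left of the directed edge `u → v` -/
def lf (u v : Pt) : Pt :=
  if v = (u.1 + 1, u.2) then (u.1, u.2)
  else if v = (u.1, u.2 + 1) then (u.1 - 1, u.2)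
  else if v = (u.1 - 1, u.2) then (u.1 - 1, u.2 - 1)
  else (u.1, u.2 - 1)

/-- the face to the right of the directed edge `u → v` -/
def rf (u v : Pt) : Pt :=
  if v = (u.1 + 1, u.2) then (u.1, u.2 - 1)
  else if v = (u.1, u.2 + 1) then (u.1, u.2)
  else if v = (u.1 - 1, u.2) then (u.1 - 1, u.2)
  else (u.1 - 1, u.2 - 1)

/-- `c` is a partner of `b` -/
def IsP (ω : Conf) (b c : Pt) : Prop := ω.1 b = c ∨ ω.2 b = c

theorem IsP.symm (hω : ω ∈ DD V) {b c : Pt} (h : IsP ω b c) : IsP ω c b := by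
  rcases h with h | h
  · exact Or.inl (by rw [← h, L.inv1 hω])
  · exact Or.inr (by rw [← h, L.inv2 hω])

theorem isP_comm (hω : ω ∈ DD V) {b c : Pt} : IsP ω b c ↔ IsP ω c b :=
  ⟨fun h => h.symm hω, fun h => h.symm hω⟩

theorem IsP.mem {A : Set Pt} (hA : A ∈ Loops ω) {b c : Pt} (h : IsP ω b c) (hb : b ∈ A) : c ∈ A := by
  rcases h with rfl | rfl
  · exact L.loop_m1 hA hb
  · exact L.loop_m2 hA hb

theorem eA_ind (hω : ω ∈ DD V) {A : Set Pt} (hA : A ∈ Loops ω) (v : Pt) :
    eA ω A v = ind (v ∈ A ∧ IsP ω v (v.1, v.2 + 1)) := eA_loop hω hA v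

theorem eB_ind (hω : ω ∈ DD V) {A : Set Pt} (hA : A ∈ Loops ω) (v : Pt) :
    eB ω A v = ind (v ∈ A ∧ IsP ω v (v.1 + 1, v.2)) := by
  unfold eB IsP
  by_cases hv : v ∈ A
  · have hne := L.loop_ne hω hA hv
    by_cases h1 : ω.1 v = (v.1 + 1, v.2)
    · have h2 : ω.2 v ≠ (v.1 + 1, v.2) := fun h => hne (h1.trans h.symm)
      rw [ind_true ⟨Or.inl hv, h1⟩, ind_false (fun h => h2 h.2), ind_true ⟨hv, Or.inl h1⟩, add_zero]
    · by_cases h2 : ω.2 v = (v.1 + 1, v.2)
      · rw [ind_false (fun h => h1 h.2), ind_true ⟨Or.inl hv, h2⟩, ind_true ⟨hv, Or.inr h2⟩,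
          zero_add]
      · rw [ind_false (fun h => h1 h.2), ind_false (fun h => h2 h.2),
          ind_false (fun h => h.2.elim h1 h2), zero_add]
  · have n1 : ¬ ((v ∈ A ∨ (v.1 + 1, v.2) ∈ A) ∧ ω.1 v = (v.1 + 1, v.2)) := by
      rintro ⟨h, e⟩
      have := L.loop_m1 hA (h.resolve_left hv)
      rw [← e, L.inv1 hω] at this
      exact hv this
    have n2 : ¬ ((v ∈ A ∨ (v.1 + 1, v.2) ∈ A) ∧ ω.2 v = (v.1 + 1, v.2)) := by
      rintro ⟨h, e⟩
      have := L.loop_m2 hA (h.resolve_left hv)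
      rw [← e, L.inv2 hω] at this
      exact hv this
    rw [ind_false n1, ind_false n2, ind_false (fun h => hv h.1), add_zero]

/-- the parity of `surr` around a vertex: crossing the four edges at `b` -/
theorem around (hω : ω ∈ DD V) {A : Set Pt} (hA : A ∈ Loops ω) {x y : ℤ} :
    ind (surr ω A (x, y)) = ind (surr ω A (x - 1, y)) +
      ind ((x, y) ∈ A ∧ IsP ω (x, y) (x, y + 1)) ∧
    ind (surr ω A (x, y)) = ind (surr ω A (x, y - 1)) +
      ind ((x, y) ∈ A ∧ IsP ω (x, y) (x + 1, y)) := by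
  have hev := loop_even hω hA
  constructor
  · rw [surr_par hω hA, surr_par hω hA, par_right hev x y, eA_ind hω hA]
  · rw [surr_par hω hA, surr_par hω hA, par_up hev x y, eB_ind hω hA]

/-- the four faces around a vertex of the loop -/
theorem around_mem (hω : ω ∈ DD V) {A : Set Pt} (hA : A ∈ Loops ω) {x y : ℤ} (hb : (x, y) ∈ A) :
    ind (surr ω A (x, y)) = ind (surr ω A (x - 1, y)) + ind (IsP ω (x, y) (x, y + 1)) ∧
    ind (surr ω A (x, y)) = ind (surr ω A (x, y - 1)) + ind (IsP ω (x, y) (x + 1, y)) ∧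
    ind (surr ω A (x, y - 1)) = ind (surr ω A (x - 1, y - 1)) + ind (IsP ω (x, y) (x, y - 1)) ∧
    ind (surr ω A (x - 1, y)) = ind (surr ω A (x - 1, y - 1)) +
      ind (IsP ω (x, y) (x - 1, y)) := by
  obtain ⟨h1, h2⟩ := around hω hA (x := x) (y := y)
  obtain ⟨h3, _⟩ := around hω hA (x := x) (y := y - 1)
  obtain ⟨_, h4⟩ := around hω hA (x := x - 1) (y := y)
  refine ⟨?_, ?_, ?_, ?_⟩
  · rw [h1]; congr 1; exact ind_congr ⟨fun h => h.2, fun h => ⟨hb, h⟩⟩
  · rw [h2]; congr 1; exact ind_congr ⟨fun h => h.2, fun h => ⟨hb, h⟩⟩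
  · rw [h3]; congr 1
    rw [sub_add_cancel]
    exact ind_congr ⟨fun h => h.2.symm hω, fun h => ⟨h.mem hA hb, h.symm hω⟩⟩
  · rw [h4]; congr 1
    rw [sub_add_cancel]
    exact ind_congr ⟨fun h => h.2.symm hω, fun h => ⟨h.mem hA hb, h.symm hω⟩⟩

theorem z2c : ∀ a b : ZMod 2, a + b + b = a := by decide

set_option linter.unusedSimpArgs false in
/-- passing a vertex of the loop, the left (right) faces stay on the same side of the loop -/
theorem turn (hω : ω ∈ DD V) {A : Set Pt} (hA : A ∈ Loops ω) {a b c : Pt} (hb : b ∈ A)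
    (hac : a ≠ c) (ha : Adj b a) (hc : Adj b c) (hP : ∀ d, IsP ω b d ↔ d = a ∨ d = c) :
    (surr ω A (lf a b) ↔ surr ω A (lf b c)) ∧ (surr ω A (rf a b) ↔ surr ω A (rf b c)) := by
  obtain ⟨x, y⟩ := b
  obtain ⟨h1, h2, h3, h4⟩ := around_mem hω hA hb
  rw [ind_congr (hP _)] at h1 h2 h3 h4
  have na := mem_nbrs.2 ha
  have nc := mem_nbrs.2 hc
  simp only [nbrs, mem_insert, mem_singleton] at na nc
  have t1 : (x + 1 : ℤ) ≠ x := by omega
  have t2 : (x : ℤ) ≠ x + 1 := by omega
  have t3 : (x - 1 : ℤ) ≠ x := by omega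
  have t4 : (x : ℤ) ≠ x - 1 := by omega
  have t5 : (y + 1 : ℤ) ≠ y := by omega
  have t6 : (y : ℤ) ≠ y + 1 := by omega
  have t7 : (y - 1 : ℤ) ≠ y := by omega
  have t8 : (y : ℤ) ≠ y - 1 := by omega
  have t9 : (x + 1 : ℤ) ≠ x - 1 := by omega
  have t10 : (x - 1 : ℤ) ≠ x + 1 := by omega
  have t11 : (y + 1 : ℤ) ≠ y - 1 := by omega
  have t12 : (y - 1 : ℤ) ≠ y + 1 := by omega
  have t13 : (x : ℤ) ≠ x - 1 - 1 := by omega
  have t14 : (x : ℤ) ≠ x + 1 + 1 := by omega
  have t15 : (y : ℤ) ≠ y - 1 - 1 := by omega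
  have t16 : (y : ℤ) ≠ y + 1 + 1 := by omega
  rcases na with rfl | rfl | rfl | rfl <;> rcases nc with rfl | rfl | rfl | rfl <;>
    first
    | exact absurd rfl hac
    | (simp only [Prod.mk.injEq, t1, t2, t3, t4, t5, t6, t7, t8, t9, t10, t11, t12, and_true,
        true_and, and_false, false_and, or_true, true_or, or_false, false_or, or_self] at h1 h2 h3 h4
       simp only [ind_true trivial, ind_false not_false, add_zero] at h1 h2 h3 h4
       constructor <;>
       · apply ind_iff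
         simp only [lf, rf, Prod.mk.injEq, t1, t2, t3, t4, t5, t6, t7, t8, t9, t10, t11, t12, t13,
           t14, t15, t16, and_true, true_and, and_false, false_and, if_true, if_false,
           sub_add_cancel, add_sub_cancel_right] <;>
         first
         | rfl
         | simp only [h1, h3, h4, z2c])

/-! ## The half line below `s` -/

variable {xS t : ℤ}

theorem same_symm' (hω : ω ∈ DD V) {u v : Pt} (h : Same ω u v) : Same ω v u := by
  induction h with
  | refl => exact Relation.ReflTransGen.refl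
  | @tail b c _ hbc ih =>
    refine Relation.ReflTransGen.trans (Relation.ReflTransGen.single ?_) ih
    rcases hbc with rfl | rfl
    · exact Or.inl (L.inv1 hω b).symm
    · exact Or.inr (L.inv2 hω b).symm

/-- a new loop does not meet the half line -/
theorem line_not_mem (hω : ω ∈ DD V) (hs : (xS, t) ∉ Et xS ω t) {y : ℤ} (hy : y < t) :
    (xS, y) ∉ comp ω (xS, t) := fun h => hs ⟨y, hy, same_symm' hω h⟩

/-- a loop disjoint from an explored component -/
theorem et_not_mem (hω : ω ∈ DD V) (hs : (xS, t) ∉ Et xS ω t) {v : Pt} (hv : v ∈ Et xS ω t) :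
    v ∉ comp ω (xS, t) := by
  obtain ⟨y, hy, h⟩ := hv
  intro h'
  exact hs ⟨y, hy, Relation.ReflTransGen.trans h (same_symm' hω h')⟩

/-- the faces at the half line are not surrounded by the new loop -/
theorem line_not_surr (hω : ω ∈ DD V) (h : ω.1 (xS, t) ≠ ω.2 (xS, t))
    (hs : (xS, t) ∉ Et xS ω t) {y : ℤ} (hy : y < t) {f : Pt} (hf : f ∈ facesAt (xS, y)) :
    ¬ surr ω (comp ω (xS, t)) f := by
  have hL : comp ω (xS, t) ∈ Loops ω := ⟨_, h, rfl⟩
  -- the vertices of the half line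
  have key : ∀ n : ℕ, surr ω (comp ω (xS, t)) (xS, t - 1) ↔
      surr ω (comp ω (xS, t)) (xS, t - 1 - n) := by
    intro n
    induction n with
    | zero => simp
    | succ n ih =>
      rw [ih]
      refine A1.surr_adj hω hL ?_ (line_not_mem hω hs (by omega)) (line_not_mem hω hs (by omega))
      unfold Adj
      simp only [sub_self, abs_zero, zero_add]
      rw [show t - 1 - (n : ℤ) - (t - 1 - ((n + 1 : ℕ) : ℤ)) = 1 by push_cast; ring, abs_one]
  have hfar : ∃ n : ℕ, ¬ surr ω (comp ω (xS, t)) (xS, t - 1 - n) := by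
    by_contra hcon
    push Not at hcon
    have hinj : Function.Injective (fun n : ℕ => ((xS, t - 1 - n) : Pt)) := by
      intro a b hab
      simp only [Prod.mk.injEq, true_and] at hab
      omega
    exact Set.infinite_of_injective_forall_mem hinj hcon (A1.surr_finite hω hL)
  obtain ⟨n, hn⟩ := hfar
  have h0 : ∀ n : ℕ, ¬ surr ω (comp ω (xS, t)) (xS, t - 1 - n) := fun m hm =>
    hn ((key n).1 ((key m).2 hm))
  have hy' := h0 (t - 1 - y).toNat
  rw [Int.toNat_of_nonneg (by omega), show t - 1 - (t - 1 - y) = y by ring] at hy'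
  rw [A1.surr_corner hω hL (v := (xS, y)) (line_not_mem hω hs hy)]
  · exact hy'
  · simp only [facesAt, mem_insert, mem_singleton] at hf
    unfold LatCycle.corner
    rcases hf with rfl | rfl | rfl | rfl <;> simp

/-- the two faces below `s` are not surrounded -/
theorem below_not_surr (hω : ω ∈ DD V) (h : ω.1 (xS, t) ≠ ω.2 (xS, t))
    (hs : (xS, t) ∉ Et xS ω t) :
    ¬ surr ω (comp ω (xS, t)) (xS, t - 1) ∧ ¬ surr ω (comp ω (xS, t)) (xS - 1, t - 1) :=
  ⟨line_not_surr hω h hs (y := t - 1) (by omega) (by simp [facesAt]),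
    line_not_surr hω h hs (y := t - 1) (by omega) (by simp [facesAt])⟩

/-- the point below `s` is not a partner -/
theorem south (hω : ω ∈ DD V) (hs : (xS, t) ∉ Et xS ω t) : ¬ IsP ω (xS, t) (xS, t - 1) := by
  intro h
  refine line_not_mem hω hs (y := t - 1) (by omega) ?_
  exact Relation.ReflTransGen.single (h.imp Eq.symm Eq.symm)

/-- partners along the path -/
theorem isP_go (hω : ω ∈ DD V) (h : ω.1 s ≠ ω.2 s) (i : ℕ) (d : Pt) :
    IsP ω (go ω s (i + 1)) d ↔ d = go ω s i ∨ d = go ω s (i + 2) := by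
  unfold IsP
  rcases go_partners hω h i with ⟨h1, h2⟩ | ⟨h1, h2⟩
  · rw [h1, h2, or_comm, eq_comm, eq_comm (a := go ω s (i + 2))]
  · rw [h1, h2, eq_comm, eq_comm (a := go ω s (i + 2))]

theorem adj_symm' {u v : Pt} (h : Adj u v) : Adj v u := L.adj_symm h

theorem sides_step (hω : ω ∈ DD V) (h : ω.1 s ≠ ω.2 s) (i : ℕ) :
    (surr ω (comp ω s) (lf (go ω s i) (go ω s (i + 1))) ↔
      surr ω (comp ω s) (lf (go ω s (i + 1)) (go ω s (i + 2)))) ∧
    (surr ω (comp ω s) (rf (go ω s i) (go ω s (i + 1))) ↔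
      surr ω (comp ω s) (rf (go ω s (i + 1)) (go ω s (i + 2)))) :=
  turn hω ⟨s, h, rfl⟩ (go_mem ω s (i + 1)) (go_ne_two hω h i) (adj_symm' (go_adj hω h i))
    (go_adj hω h (i + 1)) (isP_go hω h i)

theorem ind_eq_zero {p : Prop} (h : ind p = 0) : ¬ p := by
  intro hp; rw [ind_true hp] at h; exact absurd h (by decide)

theorem ind_eq_one {p : Prop} (h : ind p = 1) : p := by
  by_contra hp; rw [ind_false hp] at h; exact absurd h (by decide)

theorem sides_zero (hω : ω ∈ DD V) (h : ω.1 (xS, t) ≠ ω.2 (xS, t))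
    (hs : (xS, t) ∉ Et xS ω t) :
    surr ω (comp ω (xS, t)) (lf (xS, t) (go ω (xS, t) 1)) ∧
    ¬ surr ω (comp ω (xS, t)) (rf (xS, t) (go ω (xS, t) 1)) := by
  have hL : comp ω (xS, t) ∈ Loops ω := ⟨_, h, rfl⟩
  obtain ⟨b1, b2⟩ := below_not_surr hω h hs
  obtain ⟨h1, h2, h3, h4⟩ := around_mem hω hL (x := xS) (y := t) (Relation.ReflTransGen.refl : Same ω (xS, t) (xS, t))
  have hS := south hω hs
  rw [ind_false b1] at h2 h3
  rw [ind_false b2] at h3 h4
  rcases go_one h (fun he => hS (Or.inl he)) (fun he => hS (Or.inr he)) hω with he | ⟨he, hp⟩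
  · have e1 : lf (xS, t) (go ω (xS, t) 1) = (xS, t) := by rw [he]; simp [lf]
    have e2 : rf (xS, t) (go ω (xS, t) 1) = (xS, t - 1) := by rw [he]; simp [rf]
    rw [e1, e2]
    refine ⟨ind_eq_one ?_, b1⟩
    have hP : IsP ω (xS, t) (xS + 1, t) := by
      have := go_step ω (xS, t) 0
      rw [go_zero, zero_add, he] at this
      exact this.imp Eq.symm Eq.symm
    rw [h2, ind_true hP, zero_add]
  · have e1 : lf (xS, t) (go ω (xS, t) 1) = (xS - 1, t) := by rw [he]; simp [lf]
    have e2 : rf (xS, t) (go ω (xS, t) 1) = (xS, t) := by rw [he]; simp [rf]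
    rw [e1, e2]
    have hP : IsP ω (xS, t) (xS - 1, t) := by
      rcases nx_px ω (xS, t) (xS, t) with ⟨_, n⟩ | ⟨n, _⟩
      · exact Or.inr (n.trans hp)
      · exact Or.inl (n.trans hp)
    have hN : IsP ω (xS, t) (xS, t + 1) := by
      have := go_step ω (xS, t) 0
      rw [go_zero, zero_add, he] at this
      exact this.imp Eq.symm Eq.symm
    have w1 : ind (surr ω (comp ω (xS, t)) (xS - 1, t)) = 1 := by
      rw [h4, ind_true hP, zero_add]
    refine ⟨ind_eq_one w1, ind_eq_zero ?_⟩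
    rw [h1, w1, ind_true hN]
    decide

/-- **The left faces of the path are surrounded by the loop, the right faces are not.** -/
theorem sides (hω : ω ∈ DD V) (h : ω.1 (xS, t) ≠ ω.2 (xS, t)) (hs : (xS, t) ∉ Et xS ω t) (i : ℕ) :
    surr ω (comp ω (xS, t)) (lf (go ω (xS, t) i) (go ω (xS, t) (i + 1))) ∧
    ¬ surr ω (comp ω (xS, t)) (rf (go ω (xS, t) i) (go ω (xS, t) (i + 1))) := by
  induction i with
  | zero =>
    have := sides_zero hω h hs
    rw [go_zero, zero_add]
    exact this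
  | succ i ih =>
    obtain ⟨h1, h2⟩ := sides_step hω h i
    rw [← h1, ← h2]
    exact ih

end Vale.Agent.P155.NT.Go
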