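import Vale.Agent.P155.NT.Expl
import Vale.Agent.P155.NT.PathDet
import Vale.Agent.P155.NT802.Exc

/-!
# P155, NT, block A3: the exploration with one global index (helper862)

`tm V xS ω n = (t, i)`: the `n`-th time of the exploration of the line `x = xS`; the tip at this
time is `p V xS ω n = go ω (xS, t) i`, the explored set is `En V xS ω n = Eti xS ω t i`; the
exploration ends at the time `M V xS ω`.
-/

namespace Vale.Agent.P155.NT.Tm

open Vale.Agent.P155 T802 T862 Finset NT

variable {V : Finset Pt} {ω ω' : Conf} {xS : ℤ}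

/-- a bound for the heights of the points of `V` -/
def top (V : Finset Pt) : ℤ := ((V.sup (fun v => v.2.natAbs) : ℕ) : ℤ) + 1

theorem lt_top {v : Pt} (h : v ∈ V) : v.2 < top V ∧ - top V < v.2 := by
  have h1 : v.2.natAbs ≤ V.sup (fun v => v.2.natAbs) :=
    Finset.le_sup (f := fun v : Pt => v.2.natAbs) h
  unfold top
  omega

/-- `(xS, y)` is the lowest point of the line on its component -/
def Beg (V : Finset Pt) (xS : ℤ) (ω : Conf) (y : ℤ) : Prop := (xS, y) ∈ V ∧ (xS, y) ∉ Et xS ω y

/-- the next beginning, not below `a` -/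
noncomputable def start (V : Finset Pt) (xS : ℤ) (ω : Conf) (a : ℤ) : ℤ :=
  sInf {y | a ≤ y ∧ (Beg V xS ω y ∨ top V ≤ y)}

theorem start_mem (V : Finset Pt) (xS : ℤ) (ω : Conf) (a : ℤ) :
    a ≤ start V xS ω a ∧ (Beg V xS ω (start V xS ω a) ∨ top V ≤ start V xS ω a) :=
  Int.csInf_mem (s := {y | a ≤ y ∧ (Beg V xS ω y ∨ top V ≤ y)})
    ⟨max a (top V), le_max_left _ _, Or.inr (le_max_right _ _)⟩ ⟨a, fun _ hy => hy.1⟩

theorem start_le {a y : ℤ} (h : a ≤ y) (hy : Beg V xS ω y ∨ top V ≤ y) : start V xS ω a ≤ y :=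
  csInf_le ⟨a, fun _ hy => hy.1⟩ ⟨h, hy⟩

open Classical in
/-- the times of the exploration -/
noncomputable def tm (V : Finset Pt) (xS : ℤ) (ω : Conf) : ℕ → ℤ × ℕ
  | 0 => (start V xS ω (- top V), 0)
  | n + 1 => if (tm V xS ω n).2 + 1 < (comp ω (xS, (tm V xS ω n).1)).ncard
      then ((tm V xS ω n).1, (tm V xS ω n).2 + 1) else (start V xS ω ((tm V xS ω n).1 + 1), 0)

/-- the tip of the exploration -/
noncomputable def p (V : Finset Pt) (xS : ℤ) (ω : Conf) (n : ℕ) : Pt :=
  go ω (xS, (tm V xS ω n).1) (tm V xS ω n).2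

/-- the explored set -/
noncomputable def En (V : Finset Pt) (xS : ℤ) (ω : Conf) (n : ℕ) : Set Pt :=
  Eti xS ω (tm V xS ω n).1 (tm V xS ω n).2

/-- end of the exploration -/
noncomputable def M (V : Finset Pt) (xS : ℤ) (ω : Conf) : ℕ := sInf {n | top V ≤ (tm V xS ω n).1}

theorem tm_go {n : ℕ} (h : (tm V xS ω n).2 + 1 < (comp ω (xS, (tm V xS ω n).1)).ncard) :
    tm V xS ω (n + 1) = ((tm V xS ω n).1, (tm V xS ω n).2 + 1) := by
  rw [tm, if_pos h]

theorem tm_new {n : ℕ} (h : ¬ (tm V xS ω n).2 + 1 < (comp ω (xS, (tm V xS ω n).1)).ncard) :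
    tm V xS ω (n + 1) = (start V xS ω ((tm V xS ω n).1 + 1), 0) := by
  rw [tm, if_neg h]

/-- lexicographic order of the times -/
def Lt (a b : ℤ × ℕ) : Prop := a.1 < b.1 ∨ (a.1 = b.1 ∧ a.2 < b.2)

theorem Lt.trans {a b c : ℤ × ℕ} (h : Lt a b) (h' : Lt b c) : Lt a c := by
  unfold Lt at *; omega

theorem Lt.irrefl {a : ℤ × ℕ} (h : Lt a a) : False := by
  unfold Lt at h; omega

theorem tm_lt_succ (V : Finset Pt) (xS : ℤ) (ω : Conf) (n : ℕ) :
    Lt (tm V xS ω n) (tm V xS ω (n + 1)) := by
  by_cases h : (tm V xS ω n).2 + 1 < (comp ω (xS, (tm V xS ω n).1)).ncard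
  · rw [tm_go h]
    exact Or.inr ⟨rfl, Nat.lt_succ_self _⟩
  · rw [tm_new h]
    left
    have := (start_mem V xS ω ((tm V xS ω n).1 + 1)).1
    show (tm V xS ω n).1 < start V xS ω ((tm V xS ω n).1 + 1)
    omega

theorem tm_lt {m n : ℕ} (h : m < n) : Lt (tm V xS ω m) (tm V xS ω n) := by
  induction n, h using Nat.le_induction with
  | base => exact tm_lt_succ V xS ω m
  | succ n _ ih => exact ih.trans (tm_lt_succ V xS ω n)

theorem tm_le {m n : ℕ} (h : m ≤ n) : (tm V xS ω m).1 ≤ (tm V xS ω n).1 := by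
  rcases h.lt_or_eq with h | rfl
  · rcases tm_lt (V := V) (xS := xS) (ω := ω) h with h | h
    · exact h.le
    · exact h.1.le
  · exact le_rfl

theorem tm_inj {m n : ℕ} (h : tm V xS ω m = tm V xS ω n) : m = n := by
  rcases lt_trichotomy m n with h1 | h1 | h1
  · exact absurd (h ▸ tm_lt (V := V) (xS := xS) (ω := ω) h1) fun h => h.irrefl
  · exact h1
  · exact absurd (h ▸ tm_lt (V := V) (xS := xS) (ω := ω) h1) fun h => h.irrefl

/-! ## Components of vertices -/

theorem comp_finite (hω : ω ∈ DD V) {s : Pt} (hs : s ∈ V) : (comp ω s).Finite :=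
  V.finite_toSet.subset (L.comp_subset_V hω hs)

theorem ncard_pos (hω : ω ∈ DD V) {s : Pt} (hs : s ∈ V) : 0 < (comp ω s).ncard :=
  (Set.ncard_pos (comp_finite hω hs)).2 ⟨s, self_mem_comp ω s⟩

theorem go_inj (hω : ω ∈ DD V) {s : Pt} (hs : s ∈ V) {i j : ℕ} (hi : i < (comp ω s).ncard)
    (hj : j < (comp ω s).ncard) (h : go ω s i = go ω s j) : i = j := by
  classical
  set m := (comp ω s).ncard with hm
  have hfin := comp_finite hω hs
  have hsub : hfin.toFinset ⊆ (Finset.range m).image (go ω s) := by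
    intro v hv
    rw [Set.Finite.mem_toFinset] at hv
    obtain ⟨u, hu, rfl⟩ := NT802.go_mem hω hs hv
    exact Finset.mem_image.2 ⟨u, Finset.mem_range.2 hu, rfl⟩
  have hcard : m ≤ ((Finset.range m).image (go ω s)).card :=
    (Set.ncard_eq_toFinset_card _ hfin).le.trans (Finset.card_le_card hsub)
  have hinj : Set.InjOn (go ω s) (Finset.range m : Finset ℕ) := by
    apply Finset.injOn_of_card_image_eq
    refine le_antisymm Finset.card_image_le ?_
    rwa [Finset.card_range]
  exact hinj (by simpa using hi) (by simpa using hj) h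

/-- before the end the time is valid -/
theorem valid (hω : ω ∈ DD V) {n : ℕ} (h : (tm V xS ω n).1 < top V) :
    Beg V xS ω (tm V xS ω n).1 ∧ (tm V xS ω n).2 < (comp ω (xS, (tm V xS ω n).1)).ncard := by
  have hst : ∀ a, start V xS ω a < top V → Beg V xS ω (start V xS ω a) ∧
      0 < (comp ω (xS, start V xS ω a)).ncard := by
    intro a ha
    rcases (start_mem V xS ω a).2 with h1 | h1
    · exact ⟨h1, ncard_pos hω h1.1⟩
    · exact absurd h1 (by omega)
  induction n with
  | zero => exact hst _ h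
  | succ n ih =>
    by_cases hn : (tm V xS ω n).2 + 1 < (comp ω (xS, (tm V xS ω n).1)).ncard
    · rw [tm_go hn] at h ⊢
      exact ⟨(ih h).1, hn⟩
    · rw [tm_new hn] at h ⊢
      exact hst _ h

theorem p_mem_comp (V : Finset Pt) (xS : ℤ) (ω : Conf) (n : ℕ) :
    p V xS ω n ∈ comp ω (xS, (tm V xS ω n).1) := go_mem_comp ω _ _

theorem p_mem_V (hω : ω ∈ DD V) {n : ℕ} (h : (tm V xS ω n).1 < top V) : p V xS ω n ∈ V :=
  L.comp_subset_V hω (valid hω h).1.1 (p_mem_comp V xS ω n)

theorem p_inj' (hω : ω ∈ DD V) {m n : ℕ} (hm : (tm V xS ω m).1 < top V)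
    (hn : (tm V xS ω n).1 < top V) (h : p V xS ω m = p V xS ω n) : m = n := by
  have vm := valid hω hm
  have vn := valid hω hn
  rcases lt_trichotomy (tm V xS ω m).1 (tm V xS ω n).1 with h1 | h1 | h1
  · exfalso
    apply vn.1.2
    refine ⟨_, h1, ?_⟩
    have h2 := p_mem_comp V xS ω m
    have h3 := p_mem_comp V xS ω n
    rw [h] at h2
    exact Relation.ReflTransGen.trans h2 (L.same_symm hω h3)
  · apply tm_inj (V := V) (xS := xS) (ω := ω)
    refine Prod.ext h1 ?_
    unfold p at h
    rw [← h1] at h vn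
    exact go_inj hω vm.1.1 vm.2 vn.2 h
  · exfalso
    apply vm.1.2
    refine ⟨_, h1, ?_⟩
    have h2 := p_mem_comp V xS ω m
    have h3 := p_mem_comp V xS ω n
    rw [← h] at h3
    exact Relation.ReflTransGen.trans h3 (L.same_symm hω h2)

theorem exists_end (hω : ω ∈ DD V) : ∃ n, top V ≤ (tm V xS ω n).1 := by
  by_contra hcon
  push Not at hcon
  have hinj : Function.Injective (p V xS ω) := fun m n h => p_inj' hω (hcon m) (hcon n) h
  exact Set.infinite_of_injective_forall_mem hinj (fun n => p_mem_V hω (hcon n)) V.finite_toSet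

theorem M_spec (hω : ω ∈ DD V) : top V ≤ (tm V xS ω (M V xS ω)).1 :=
  Nat.sInf_mem (s := {n | top V ≤ (tm V xS ω n).1}) (exists_end hω)

theorem M_le {n : ℕ} (h : top V ≤ (tm V xS ω n).1) : M V xS ω ≤ n := Nat.sInf_le h

theorem M_le_iff (hω : ω ∈ DD V) {n : ℕ} : M V xS ω ≤ n ↔ top V ≤ (tm V xS ω n).1 :=
  ⟨fun h => (M_spec hω).trans (tm_le h), M_le⟩

theorem lt_M_iff (hω : ω ∈ DD V) {n : ℕ} : n < M V xS ω ↔ (tm V xS ω n).1 < top V := by
  rw [← not_le, ← not_le, M_le_iff hω]

/-- **(P1)** the tips are distinct -/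
theorem p_inj (hω : ω ∈ DD V) {m n : ℕ} (hm : m < M V xS ω) (hn : n < M V xS ω)
    (h : p V xS ω m = p V xS ω n) : m = n :=
  p_inj' hω ((lt_M_iff hω).1 hm) ((lt_M_iff hω).1 hn) h

theorem valid' (hω : ω ∈ DD V) {n : ℕ} (h : n < M V xS ω) :
    Beg V xS ω (tm V xS ω n).1 ∧ (tm V xS ω n).2 < (comp ω (xS, (tm V xS ω n).1)).ncard :=
  valid hω ((lt_M_iff hω).1 h)

theorem p_mem (hω : ω ∈ DD V) {n : ℕ} (h : n < M V xS ω) : p V xS ω n ∈ V :=
  p_mem_V hω ((lt_M_iff hω).1 h)

/-- **(P2)** two consecutive times -/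
theorem tm_step (V : Finset Pt) (xS : ℤ) (ω : Conf) (n : ℕ) :
    (∃ t, (tm V xS ω n).1 < t ∧ tm V xS ω (n + 1) = (t, 0) ∧ p V xS ω (n + 1) = (xS, t) ∧
      ¬ (tm V xS ω n).2 + 1 < (comp ω (xS, (tm V xS ω n).1)).ncard) ∨
    (tm V xS ω (n + 1) = ((tm V xS ω n).1, (tm V xS ω n).2 + 1) ∧
      p V xS ω (n + 1) = go ω (xS, (tm V xS ω n).1) ((tm V xS ω n).2 + 1)) := by
  by_cases h : (tm V xS ω n).2 + 1 < (comp ω (xS, (tm V xS ω n).1)).ncard
  · right
    refine ⟨tm_go h, ?_⟩
    unfold p
    rw [tm_go h]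
  · left
    refine ⟨start V xS ω ((tm V xS ω n).1 + 1), ?_, tm_new h, ?_, h⟩
    · have := (start_mem V xS ω ((tm V xS ω n).1 + 1)).1
      omega
    · unfold p
      rw [tm_new h]
      exact Go.go_zero ω _

/-- **(P3)** every valid time is reached -/
theorem surj (hω : ω ∈ DD V) {t : ℤ} {i : ℕ} (ht : Beg V xS ω t)
    (hi : i < (comp ω (xS, t)).ncard) : ∃ n < M V xS ω, tm V xS ω n = (t, i) := by
  classical
  have htop := (lt_top ht.1)
  simp only at htop
  -- the last time not after `(t, i)`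
  have hex : ∃ n, Lt (t, i) (tm V xS ω n) := by
    obtain ⟨n, hn⟩ := exists_end (V := V) (xS := xS) hω
    exact ⟨n, Or.inl (by show t < _; omega)⟩
  have h0 : ¬ Lt (t, i) (tm V xS ω 0) := by
    have h1 : start V xS ω (- top V) ≤ t := start_le (by omega) (Or.inl ht)
    show ¬ (t < start V xS ω (- top V) ∨ (t = start V xS ω (- top V) ∧ i < 0))
    omega
  set n := Nat.find hex with hn
  have hn0 : n ≠ 0 := by
    intro h
    have := Nat.find_spec hex
    rw [← hn, h] at this
    exact h0 this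
  obtain ⟨m, hm⟩ := Nat.exists_eq_succ_of_ne_zero hn0
  have h1 : ¬ Lt (t, i) (tm V xS ω m) := Nat.find_min hex (by omega)
  have h2 : Lt (t, i) (tm V xS ω (m + 1)) := by
    have := Nat.find_spec hex
    rw [← hn, hm] at this
    exact this
  have he : tm V xS ω m = (t, i) := by
    by_contra hne
    have h3 : Lt (tm V xS ω m) (t, i) := by
      have hne' : ¬ ((tm V xS ω m).1 = t ∧ (tm V xS ω m).2 = i) := fun h =>
        hne (Prod.ext h.1 h.2)
      unfold Lt at h1 ⊢
      simp only at h1 ⊢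
      omega
    apply h1.elim
    exfalso
    by_cases hs : (tm V xS ω m).2 + 1 < (comp ω (xS, (tm V xS ω m).1)).ncard
    · rw [tm_go hs] at h2
      unfold Lt at h2 h3
      simp only at h2 h3
      omega
    · rw [tm_new hs] at h2
      have h4 : (tm V xS ω m).1 < t := by
        rcases h3 with h3 | ⟨h3, h3'⟩
        · exact h3
        · exfalso
          simp only at h3 h3'
          rw [h3] at hs
          omega
      have h5 : start V xS ω ((tm V xS ω m).1 + 1) ≤ t := start_le (by omega) (Or.inl ht)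
      unfold Lt at h2
      simp only at h2
      omega
  refine ⟨m, ?_, he⟩
  rw [lt_M_iff hω, he]
  exact htop.1

/-! ## Explored sets -/

theorem En_mono {m n : ℕ} (h : m ≤ n) : En V xS ω m ⊆ En V xS ω n := by
  rcases h.lt_or_eq with h | rfl
  · rcases tm_lt (V := V) (xS := xS) (ω := ω) h with h1 | ⟨h1, h2⟩
    · rintro v (hv | ⟨j, _, rfl⟩)
      · exact Or.inl (Et_mono h1.le hv)
      · exact Or.inl (comp_sub_Et h1 (go_mem_comp ω _ _))
    · unfold En
      rw [h1]
      exact Eti_mono h2.le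
  · exact le_rfl

theorem p_mem_En {m n : ℕ} (h : m ≤ n) : p V xS ω m ∈ En V xS ω n :=
  En_mono h (go_mem_Eti le_rfl)

/-- the explored vertices at the time `n` are `p 0, …, p n` -/
theorem mem_En (hω : ω ∈ DD V) {n : ℕ} (hn : n < M V xS ω) {v : Pt} (hv : v ∈ V) :
    v ∈ En V xS ω n ↔ ∃ m ≤ n, v = p V xS ω m := by
  constructor
  · intro h
    have hvn := valid' hω hn
    -- the lowest point of the line on the component of `v`
    have key : ∀ t, v ∈ Et xS ω t → ∃ y < t, Beg V xS ω y ∧ v ∈ comp ω (xS, y) := by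
      intro t ht
      have hb : BddBelow {y | v ∈ comp ω (xS, y)} := by
        refine ⟨- top V, fun y hy => ?_⟩
        have : (xS, y) ∈ V := by
          have h1 := L.comp_subset_V hω hv (L.same_symm hω hy : Same ω v (xS, y))
          exact h1
        exact (lt_top this).2.le
      obtain ⟨y1, hy1, hv1⟩ := ht
      have hm := Int.csInf_mem (s := {y | v ∈ comp ω (xS, y)}) ⟨y1, hv1⟩ hb
      set y0 := sInf {y | v ∈ comp ω (xS, y)} with hy0
      have hle : y0 ≤ y1 := csInf_le hb hv1
      refine ⟨y0, by omega, ⟨?_, ?_⟩, hm⟩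
      · exact L.comp_subset_V hω hv (L.same_symm hω hm : Same ω v (xS, y0))
      · rintro ⟨y2, hy2, h2⟩
        have : v ∈ comp ω (xS, y2) := Relation.ReflTransGen.trans h2 hm
        have := csInf_le hb this
        omega
    rcases h with h | ⟨j, hj, rfl⟩
    · obtain ⟨y, hy, hb, hc⟩ := key _ h
      obtain ⟨u, hu, rfl⟩ := NT802.go_mem hω hb.1 hc
      obtain ⟨m, hm, he⟩ := surj hω hb hu
      refine ⟨m, ?_, ?_⟩
      · by_contra hcon
        have := tm_le (V := V) (xS := xS) (ω := ω) (not_le.1 hcon).le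
        rw [he] at this
        simp only at this
        omega
      · unfold p; rw [he]
    · obtain ⟨m, hm, he⟩ := surj hω hvn.1 (lt_of_le_of_lt hj hvn.2)
      refine ⟨m, ?_, ?_⟩
      · by_contra hcon
        have := tm_lt (V := V) (xS := xS) (ω := ω) (not_le.1 hcon)
        rw [he] at this
        unfold Lt at this
        simp only at this
        omega
      · unfold p; rw [he]
  · rintro ⟨m, hm, rfl⟩
    exact p_mem_En hm

/-! ## Determination -/

theorem Beg_onE {y : ℤ} (h : OnE (Et xS ω y) ω ω') :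
    Beg V xS ω' y ↔ Beg V xS ω y := by
  unfold Beg
  rw [Et_onE h]

theorem start_onE {a : ℤ} (h : OnE (Et xS ω (start V xS ω a)) ω ω') : start V xS ω' a = start V xS ω a := by
  have hm := start_mem V xS ω a
  have hB : ∀ y ≤ start V xS ω a, (Beg V xS ω' y ↔ Beg V xS ω y) := fun y hy =>
    Beg_onE (h.mono (Et_mono hy))
  apply le_antisymm
  · refine start_le hm.1 ?_
    rw [hB _ le_rfl]
    exact hm.2
  · by_contra hcon
    have hm' := start_mem V xS ω' a
    have h1 : start V xS ω a ≤ start V xS ω' a := by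
      refine start_le hm'.1 ?_
      rw [← hB _ (not_le.1 hcon).le]
      exact hm'.2
    exact hcon h1

/-- **the times up to `n` are determined by the explored part** -/
theorem tm_onE (hω : ω ∈ DD V) (hω' : ω' ∈ DD V) {n : ℕ} (h : OnE (En V xS ω n) ω ω') :
    ∀ m ≤ n, tm V xS ω' m = tm V xS ω m := by
  intro m
  induction m with
  | zero =>
    intro _
    show (start V xS ω' (- top V), 0) = (start V xS ω (- top V), 0)
    rw [start_onE]
    refine h.mono (fun v hv => ?_)
    exact En_mono (Nat.zero_le n) (Et_sub_Eti hv)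
  | succ m ih =>
    intro hm
    have e := ih (by omega)
    have hE : OnE (En V xS ω (m + 1)) ω ω' := h.mono (En_mono hm)
    by_cases hs : (tm V xS ω m).2 + 1 < (comp ω (xS, (tm V xS ω m).1)).ncard
    · -- the loop is not yet closed: also for `ω'`
      have hs' : (tm V xS ω' m).2 + 1 < (comp ω' (xS, (tm V xS ω' m).1)).ncard := by
        rw [e]
        by_contra hcon
        have h1 := En_mono (V := V) (xS := xS) (ω := ω) (Nat.le_succ m)
        by_cases htop : (tm V xS ω m).1 < top V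
        · have hv := valid hω htop
          -- the first points of the two paths agree
          have hgo : ∀ j ≤ (tm V xS ω m).2 + 1, go ω' (xS, (tm V xS ω m).1) j =
              go ω (xS, (tm V xS ω m).1) j := by
            refine Go.go_onE hω hω' (i := (tm V xS ω m).2) ?_ hv.1.2
            exact h.mono (En_mono (by omega))
          obtain ⟨u, hu, hu'⟩ := NT802.go_mem hω' hv.1.1
            (go_mem_comp ω' (xS, (tm V xS ω m).1) ((tm V xS ω m).2 + 1))
          have hu2 : u ≤ (tm V xS ω m).2 := by omega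
          rw [hgo u (by omega), hgo _ le_rfl] at hu'
          have := go_inj hω hv.1.1 (by omega) hs hu'
          omega
        · have hnV : (xS, (tm V xS ω m).1) ∉ V := fun hV => htop (lt_top hV).1
          have hc : comp ω (xS, (tm V xS ω m).1) = {(xS, (tm V xS ω m).1)} := by
            apply Set.Subset.antisymm
            · intro u hu
              induction hu with
              | refl => rfl
              | @tail b c _ hbc ih =>
                rw [Set.mem_singleton_iff] at ih ⊢
                rw [ih] at hbc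
                rcases hbc with hbc | hbc
                · rw [hbc, L.off1 hω hnV]
                · rw [hbc, L.off2 hω hnV]
            · rintro _ rfl
              exact self_mem_comp ω _
          rw [hc, Set.ncard_singleton] at hs
          omega
      rw [tm_go hs, tm_go hs', e]
    · have hE' := hE
      unfold En at hE'
      rw [tm_new hs] at hE'
      have hEt : OnE (Et xS ω (start V xS ω ((tm V xS ω m).1 + 1))) ω ω' :=
        hE'.mono (fun v hv => Or.inl hv)
      have hcomp : comp ω' (xS, (tm V xS ω m).1) = comp ω (xS, (tm V xS ω m).1) := by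
        refine comp_onE hEt (comp_sub_Et ?_)
        have := (start_mem V xS ω ((tm V xS ω m).1 + 1)).1
        omega
      have hs' : ¬ (tm V xS ω' m).2 + 1 < (comp ω' (xS, (tm V xS ω' m).1)).ncard := by
        rw [e, hcomp]; exact hs
      rw [tm_new hs, tm_new hs', e, start_onE hEt]

theorem En_onE (hω : ω ∈ DD V) (hω' : ω' ∈ DD V) {n m : ℕ} (h : OnE (En V xS ω n) ω ω')
    (hm : m ≤ n) : En V xS ω' m = En V xS ω m := by
  unfold En
  rw [tm_onE hω hω' h m hm]
  exact Eti_onE (h.mono (En_mono hm))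

theorem p_onE (hω : ω ∈ DD V) (hω' : ω' ∈ DD V) {n m : ℕ} (h : OnE (En V xS ω n) ω ω')
    (hm : m ≤ n) : p V xS ω' m = p V xS ω m := by
  unfold p
  rw [tm_onE hω hω' h m hm]
  have h' : OnE (Eti xS ω (tm V xS ω m).1 (tm V xS ω m).2) ω ω' := h.mono (En_mono hm)
  exact go_onE' h' _ (by omega)

/-- unsigned invariance of the times -/
theorem tm_uns (hu : T905.UEq ω ω') (n : ℕ) : tm V xS ω' n = tm V xS ω n := by
  have hst : ∀ a, start V xS ω' a = start V xS ω a := by
    intro a
    unfold start Beg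
    simp only [Et_uns hu]
  induction n with
  | zero =>
    show (start V xS ω' (- top V), 0) = (start V xS ω (- top V), 0)
    rw [hst]
  | succ n ih =>
    by_cases hs : (tm V xS ω n).2 + 1 < (comp ω (xS, (tm V xS ω n).1)).ncard
    · rw [tm_go hs, tm_go (by rw [ih, comp_uns hu]; exact hs), ih]
    · rw [tm_new hs, tm_new (by rw [ih, comp_uns hu]; exact hs), ih, hst]

theorem En_uns (hω : ω ∈ DD V) (hω' : ω' ∈ DD V) (hu : T905.UEq ω ω') (n : ℕ) :
    En V xS ω' n = En V xS ω n := by
  unfold En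
  rw [tm_uns hu]
  exact Eti_uns hω hω' hu

theorem p_uns (hω : ω ∈ DD V) (hω' : ω' ∈ DD V) (hu : T905.UEq ω ω') {n : ℕ}
    (hn : n < M V xS ω) : p V xS ω' n = p V xS ω n := by
  unfold p
  rw [tm_uns hu]
  exact Go.go_uns hω hω' hu (valid' hω hn).1.2 _

theorem M_uns (hu : T905.UEq ω ω') : M V xS ω' = M V xS ω := by
  unfold M
  simp only [tm_uns hu]

theorem M_le_onE (hω : ω ∈ DD V) (hω' : ω' ∈ DD V) {n : ℕ} (h : OnE (En V xS ω n) ω ω') :
    M V xS ω' ≤ n ↔ M V xS ω ≤ n := by
  rw [M_le_iff hω, M_le_iff hω', tm_onE hω hω' h n le_rfl]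

end Vale.Agent.P155.NT.Tm
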