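import Vale.Agent.P155.NT.GTime
import Vale.Agent.P155.NT802.Count

/-!
# P155, NT, block A3: the exploration is a `Walk` (helper862)
-/

namespace Vale.Agent.P155.NT.Tm

open Vale.Agent.P155 T802 T862 Finset NT

variable {V : Finset Pt} {ω : Conf} {xS : ℤ}

theorem walk (hω : ω ∈ DD V) : NT802.Walk V xS ω (tm V xS ω) (M V xS ω) where
  valid n hn := ⟨(valid' hω hn).1.1, (valid' hω hn).1.2, (valid' hω hn).2⟩
  inj i hi j hj h := p_inj hω hi hj h
  zero := rfl
  step n _ := by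
    rcases tm_step V xS ω n with ⟨t, _, h, _⟩ | ⟨h, _⟩
    · left; rw [h]
    · right; rw [h]; exact ⟨rfl, rfl⟩
  all t i h1 h2 h3 := surj hω ⟨h1, h2⟩ h3
  expl n _ i hi := p_mem_En hi

theorem pt'_eq (n : ℕ) : NT802.pt' xS ω (tm V xS ω n) = p V xS ω n := rfl

theorem Ex'_eq (n : ℕ) : NT802.Ex' xS ω (tm V xS ω n) = En V xS ω n := rfl

end Vale.Agent.P155.NT.Tm
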